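import Crest.Agent.N228.Gr.Ims
import Crest.Agent.N346.Id.Conf

/-!
# Row 228, the outer layer (helper92): two immersions with the same metric on an open set
-/

set_option autoImplicit false
open MeasureTheory Set Filter Topology Function
open scoped ContDiff
open Crest.GeometryTopology.CoordMetric Crest.Agent.N222 Crest.Agent.N222.Imm Crest.Agent.R247

noncomputable section

namespace Crest.Agent.N228

variable {d : ℕ} {ι κ κ' : Type} [Fintype ι] [DecidableEq ι] [Fintype κ] [DecidableEq κ]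
  [Fintype κ'] [DecidableEq κ'] {X : Type} [TopologicalSpace X]

/-- the same atlas, and the same metric on `U` -/
structure Same (M : Imm d ι X) (M' : Imm d κ X) (U : Set X) : Prop where
  ch : M'.ch = M.ch
  gam : ∀ p ∈ U, ∀ f g, M.Sm f → M.Sm g → M'.pre.gam f g p = M.pre.gam f g p

namespace Same

variable {M : Imm d ι X} {M' : Imm d κ X} {M'' : Imm d κ' X} {U U' : Set X} {p : X}

theorem sm_iff (h : Same M M' U) {F : Type} [NormedAddCommGroup F] [NormedSpace ℝ F] {f : X → F} :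
    M'.Sm f ↔ M.Sm f := by rw [Imm.Sm, h.ch]

theorem tst_iff (h : Same M M' U) {f : X → ℝ} : M'.Tst f ↔ M.Tst f :=
  ⟨fun t => ⟨h.sm_iff.1 t.sm, t.cs⟩, fun t => ⟨h.sm_iff.2 t.sm, t.cs⟩⟩

theorem refl (M : Imm d ι X) (U : Set X) : Same M M U := ⟨rfl, fun _ _ _ _ _ _ => rfl⟩

theorem symm (h : Same M M' U) : Same M' M U :=
  ⟨h.ch.symm, fun p hp f g hf hg => (h.gam p hp f g (h.sm_iff.1 hf) (h.sm_iff.1 hg)).symm⟩

theorem mono (h : Same M M' U) (hU : U' ⊆ U) : Same M M' U' :=
  ⟨h.ch, fun p hp => h.gam p (hU hp)⟩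

theorem trans (h : Same M M' U) (h' : Same M' M'' U) : Same M M'' U :=
  ⟨h'.ch.trans h.ch, fun p hp f g hf hg =>
    (h'.gam p hp f g (h.sm_iff.2 hf) (h.sm_iff.2 hg)).trans (h.gam p hp f g hf hg)⟩

theorem isChart (h : Same M M' U) (p : X) : IsChart M'.x (M.ch p) := h.ch ▸ M'.isChart p

/-- it is enough to know the quadratic form -/
theorem of_sq (hc : M'.ch = M.ch)
    (h : ∀ p ∈ U, ∀ f, M.Sm f → M'.pre.gam f f p = M.pre.gam f f p) : Same M M' U := by
  refine ⟨hc, fun p hp f g hf hg => ?_⟩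
  have hs : ∀ {k : X → ℝ}, M.Sm k → M'.Sm k := fun hk => by rwa [Imm.Sm, hc]
  have e1 := h p hp _ (hf.add hg)
  have e2 := h p hp f hf
  have e3 := h p hp g hg
  simp only [gam_apply, D_add (hf.diffAt p) (hg.diffAt p),
    D_add ((hs hf).diffAt p) ((hs hg).diffAt p), add_mul, mul_add, Finset.sum_add_distrib]
    at e1 e2 e3 ⊢
  simp only [mul_comm (M.pre.D _ g p), mul_comm (M'.pre.D _ g p) (M'.pre.D _ f p)] at e1 e3 ⊢
  linarith

variable [T2Space X] [SecondCountableTopology X]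

omit [DecidableEq κ] [Fintype κ] in
theorem inv_gram {x : X → E ι} {e : OpenPartialHomeomorph X (E (Fin d))} (hp : p ∈ e.source)
    {f g : X → ℝ} {i j : Fin d} (hf : f =ᶠ[𝓝 p] fun q => e q i) (hg : g =ᶠ[𝓝 p] fun q => e q j) :
    Bo84.gam (gram (x ∘ e.symm)) (f ∘ e.symm) (g ∘ e.symm) (e p) =
      (gram (x ∘ e.symm) (e p))⁻¹ i j := by
  have key : ∀ {f : X → ℝ} {i : Fin d}, (f =ᶠ[𝓝 p] fun q => e q i) → ∀ k,
      pderiv k (f ∘ e.symm) (e p) = if i = k then 1 else 0 := fun {f i} hf k => by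
    have h1 : f ∘ e.symm =ᶠ[𝓝 (e p)] (EuclideanSpace.proj i : E (Fin d) →L[ℝ] ℝ) := by
      filter_upwards [symm_eventuallyEq hp hf, e.open_target.mem_nhds (e.map_source hp)] with z h1 h2
      rw [h1, comp_apply, e.right_inv h2]
      rfl
    rw [pderiv, h1.fderiv_eq, ContinuousLinearMap.fderiv]
    simp [Pi.single_apply]
  simp [Bo84.gam, key hf, key hg, inverseField]

theorem gram_eq (h : Same M M' U) (q : X) (hp : p ∈ U) (hq : p ∈ (M.ch q).source) :
    gram (M'.x ∘ (M.ch q).symm) (M.ch q p) = gram (M.x ∘ (M.ch q).symm) (M.ch q p) := by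
  have hz := (M.ch q).map_source hq
  have ex : ∀ i : Fin d, ∃ g : X → ℝ, M.Sm g ∧ g =ᶠ[𝓝 p] fun r => M.ch q r i := fun i =>
    ((smOn_chart (M.isChart q)).comp (g := fun z : E (Fin d) => z i) fun _ _ =>
      (EuclideanSpace.proj i : E (Fin d) →L[ℝ] ℝ).contDiff.contDiffAt).exists_sm_at
      (M.ch q).open_source hq
  choose g hg he using ex
  have h1 : (gram (M'.x ∘ (M.ch q).symm) (M.ch q p))⁻¹ =
      (gram (M.x ∘ (M.ch q).symm) (M.ch q p))⁻¹ := by
    ext i j
    rw [← inv_gram hq (he i) (he j), ← inv_gram hq (he i) (he j), ← gam_coord (h.isChart q) hq,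
      ← gam_coord (M.isChart q) hq, h.gam p hp _ _ (hg i) (hg j)]
  rw [← Matrix.nonsing_inv_nonsing_inv _
    (gram_posDef ((h.isChart q).inj _ hz)).det_pos.ne'.isUnit, h1,
    Matrix.nonsing_inv_nonsing_inv _ (gram_posDef ((M.isChart q).inj _ hz)).det_pos.ne'.isUnit]

/-- no smoothness is needed -/
theorem gam' (h : Same M M' U) (hp : p ∈ U) (f g : X → ℝ) :
    M'.pre.gam f g p = M.pre.gam f g p := by
  rw [gam_coord (h.isChart p) (M.mem p), gam_coord (M.isChart p) (M.mem p)]
  simp only [Bo84.gam, inverseField, h.gram_eq p hp (M.mem p)]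

theorem conf (h : Same M M' U) (hU : IsOpen U) (q : X) :
    N346.Id.Conf (gram (M.x ∘ (M.ch q).symm)) (gram (M'.x ∘ (M.ch q).symm)) (fun _ => 0)
      ((M.ch q).restrOpen U hU).target := by
  refine ⟨((M.isChart q).restr hU).isRiemannianOn, contDiffOn_const, fun z hz => ?_⟩
  have := h.gram_eq q (p := (M.ch q).symm z) hz.2 ((M.ch q).map_target hz.1)
  rw [(M.ch q).right_inv hz.1] at this
  simp [this]

theorem mem_target (hU : IsOpen U) (hp : p ∈ U) :
    M.ch p p ∈ ((M.ch p).restrOpen U hU).target :=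
  ((M.ch p).restrOpen U hU).map_source ⟨M.mem p, hp⟩

theorem lap (h : Same M M' U) (hU : IsOpen U) (hp : p ∈ U) {f : X → ℝ} (hf : M.Sm f) :
    M'.pre.lap f p = M.pre.lap f p := by
  have h2 : ContDiffAt ℝ 2 (f ∘ (M.ch p).symm) (M.ch p p) :=
    ((hf p).contDiffAt ((M.ch p).open_target.mem_nhds ((M.ch p).map_source (M.mem p)))).of_le
      (by rw [show (2 : WithTop ℕ∞) = ((2 : ℕ∞) : WithTop ℕ∞) from rfl]; exact WithTop.coe_le_coe.2 le_top)
  rw [lap_coord (h.isChart p) (M.mem p) h2, lap_coord (M.isChart p) (M.mem p) h2,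
    (h.conf hU p).lap_eq (mem_target hU hp) h2]
  simp [Bo84.gam, pderiv]

theorem scal (h : Same M M' U) (hU : IsOpen U) (hp : p ∈ U) : M'.pre.scal p = M.pre.scal p := by
  have h3 := (h.conf hU p).scalar_eq (mem_target hU hp)
  rw [scal_coord (h.isChart p) (M.mem p), scal_coord (M.isChart p) (M.mem p)]
  refine h3.trans ?_
  simp [Bo84.gam, pderiv, laplaceBeltrami]
  rfl

theorem EF (h : Same M M' U) (hU : IsOpen U) (hp : p ∈ U) {F : X → ℝ} (hF : M.Sm F) :
    M'.pre.EF F p = M.pre.EF F p := by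
  simp only [Pre.EF, Pi.sub_apply, Pi.mul_apply, h.scal hU hp, h.lap hU hp hF, h.gam' hp]

variable [MeasurableSpace X] [BorelSpace X]

theorem mu (h : Same M M' U) (hU : IsOpen U) : M'.mu.restrict U = M.mu.restrict U := by
  obtain ⟨T, hT, h1⟩ := TopologicalSpace.isOpen_iUnion_countable
    (fun q => ((M.ch q).restrOpen U hU).source) fun q => ((M.ch q).restrOpen U hU).open_source
  have h2 : ⋃ q, ((M.ch q).restrOpen U hU).source = U :=
    subset_antisymm (iUnion_subset fun q => inter_subset_right)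
      fun p hp => mem_iUnion.2 ⟨p, M.mem p, hp⟩
  rw [← h2, ← h1, Measure.restrict_biUnion_congr hT]
  intro q _
  rw [mu_restrict ((h.isChart q).restr hU), mu_restrict ((M.isChart q).restr hU)]
  unfold chartMeas
  congr 1
  refine withDensity_congr_ae ?_
  filter_upwards [ae_restrict_mem ((M.ch q).restrOpen U hU).open_target.measurableSet] with z hz
  have := (h.conf hU q).eq z hz
  simp only [mul_zero, Real.exp_zero, one_smul] at this
  rw [jac_eq_sqrt_det, jac_eq_sqrt_det]
  exact congrArg (fun A : Matrix _ _ ℝ => ENNReal.ofReal √A.det) this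

/-- the form inequality only depends on the metric -/
theorem formOn (h : Same M M' U) (hU : IsOpen U) {V : X → ℝ} (hV : Gr.FormOn M U V) :
    Gr.FormOn M' U V := by
  intro z hz hs
  refine (hV z (h.tst_iff.1 hz) hs).trans_eq ?_
  rw [← setIntegral_eq_integral_of_forall_compl_eq_zero (s := U) (μ := M.mu)
    fun p hp => Gr.fd_zero fun h' => hp (hs h'),
    ← setIntegral_eq_integral_of_forall_compl_eq_zero (s := U) (μ := M'.mu)
    fun p hp => Gr.fd_zero fun h' => hp (hs h'), h.mu hU]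
  refine setIntegral_congr_fun hU.measurableSet fun p hp => ?_
  simp only [Gr.fd, h.scal hU hp, h.gam' hp]

end Same

end Crest.Agent.N228

end
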