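import Crest.Agent.N228.O.App
import Crest.Agent.N222.F.Graph

/-!
# Row 228, the outer layer (helper92): the exhaustion and the labels
-/

set_option autoImplicit false
open Set Filter Topology Function Metric
open Crest.Agent.N222 Crest.Agent.N222.Imm

noncomputable section

namespace Crest.Agent.N228

variable {n : ℕ} {ι : Type} [Fintype ι] [DecidableEq ι] {X : Type} [MetricSpace X] [ProperSpace X]
  [MeasurableSpace X] [BorelSpace X] [ConnectedSpace X] {M : Imm n ι X}

/-- the smoothed distance to a point -/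
theorem exists_dist (hM : Injective M.x) (hL : Len M) (y : X) {ε : ℝ} (hε : 0 < ε) :
    ∃ g, M.Sm g ∧ ∀ p, dist p y + ε ≤ g p ∧ g p ≤ dist p y + 3 * ε ∧
      M.pre.gam g g p ≤ (1 + ε) ^ 2 := by
  obtain ⟨g, hg, h⟩ := app n ι X M hM hL (fun p => dist p y) ε hε fun p q => abs_dist_sub_le p q y
  refine ⟨fun p => g p + 2 * ε, hg.add (sm_const _), fun p => ?_⟩
  have h1 := abs_le.1 (h p).1
  refine ⟨by linarith [h1.1], by linarith [h1.2], le_trans (le_of_eq ?_) (h p).2⟩
  simp only [gam_apply, D_add_const]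

/-- a smooth proper exhaustion -/
theorem exists_rho (hM : Injective M.x) (hL : Len M) {ε : ℝ} (hε : 0 < ε) :
    ∃ ρ, M.Sm ρ ∧ (∀ p, 0 < ρ p ∧ M.pre.gam ρ ρ p ≤ (1 + ε) ^ 2) ∧
      ∀ c, IsCompact {p | ρ p ≤ c} := by
  obtain ⟨y⟩ : Nonempty X := inferInstance
  obtain ⟨g, hg, h⟩ := exists_dist hM hL y hε
  refine ⟨g, hg, fun p => ⟨by linarith [(h p).1, dist_nonneg (x := p) (y := y)], (h p).2.2⟩,
    fun c => (isCompact_closedBall y c).of_isClosed_subset
      (isClosed_le hg.continuous continuous_const) fun p hp => ?_⟩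
  have : g p ≤ c := hp
  exact mem_closedBall.2 (by linarith [(h p).1])

/-- labels: a finite net of a compact set with smoothed distances -/
theorem exists_labels (hM : Injective M.x) (hL : Len M) {K : Set X} (hK : IsCompact K) {ε : ℝ}
    (hε : 0 < ε) : ∃ (G : Type) (_ : Fintype G) (_ : DecidableEq G) (d : G → X → ℝ)
      (δ : G → G → ℝ), (∀ g, M.Sm (d g) ∧ ∀ p, 0 < d g p ∧
        M.pre.gam (d g) (d g) p ≤ (1 + ε) ^ 2) ∧
      (∀ p g g', d g p - d g' p ≤ δ g g' ∧ δ g g' ≤ d g p + d g' p) ∧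
      (∀ p ∈ K, ∃ g, d g p < 4 * ε) ∧ ∀ g p q, dist p q ≤ d g p + d g q := by
  classical
  obtain ⟨T, -, hT, hc⟩ := hK.finite_cover_balls hε
  choose d hd h using fun y : X => exists_dist hM hL y hε
  refine ⟨T, hT.fintype, inferInstance, fun g => d g, fun g g' => dist g.1 g'.1 + 2 * ε,
    fun g => ⟨hd g, fun p => ⟨by linarith [(h g p).1, dist_nonneg (x := p) (y := g.1)],
      (h g p).2.2⟩⟩, fun p g g' => ⟨?_, ?_⟩, fun p hp => ?_, fun g p q => ?_⟩
  · linarith [(h g p).2.1, (h g' p).1, dist_triangle_right p g.1 g'.1, dist_triangle p g'.1 g.1,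
      dist_comm g.1 g'.1]
  · linarith [(h g p).1, (h g' p).1, dist_triangle_left g.1 g'.1 p]
  · obtain ⟨y, hy, hp⟩ := mem_iUnion₂.1 (hc hp)
    exact ⟨⟨y, hy⟩, by linarith [(h y p).2.1, mem_ball.1 hp]⟩
  · linarith [(h g p).1, (h g q).1, dist_triangle_right p q g.1]

end Crest.Agent.N228

end
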