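import Crest.Agent.N228.O.Lip
import Crest.Agent.N222.F.Bump

/-!
# Row 228 (helper55): smoothing of Lipschitz functions (no properness): `Len.app`, `Len.app_var`
-/

set_option autoImplicit false
set_option linter.unusedSectionVars false
open MeasureTheory Set Filter Topology Function
open scoped ContDiff Convolution NNReal Manifold

noncomputable section

namespace Crest.Agent.N228
open Crest.Agent.N222

variable {n : ℕ} {ι : Type} [Fintype ι] {X : Type}

/-- mollification keeps the Lipschitz constant -/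
theorem exists_moll {φ : E ι → ℝ} {K : ℝ≥0} (hφ : LipschitzWith K φ) {δ : ℝ} (hδ : 0 < δ) :
    ∃ Ψ : E ι → ℝ, ContDiff ℝ ∞ Ψ ∧ LipschitzWith K Ψ ∧ ∀ w, |Ψ w - φ w| ≤ δ := by
  have hr : 0 < δ / (K + 1) := by positivity
  set B : ContDiffBump (0 : E ι) := ⟨δ / (K + 1) / 2, δ / (K + 1), half_pos hr, half_lt_self hr⟩
  have hint : ∀ x, Integrable (fun t => B.normed volume t * φ (x - t)) volume := fun x =>
    (B.continuous_normed.mul (hφ.continuous.comp (by fun_prop))).integrable_of_hasCompactSupport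
      B.hasCompactSupport_normed.mul_right
  refine ⟨B.normed volume ⋆[ContinuousLinearMap.lsmul ℝ ℝ, volume] φ,
    B.hasCompactSupport_normed.contDiff_convolution_left _ B.contDiff_normed
      hφ.continuous.locallyIntegrable, LipschitzWith.of_dist_le_mul fun x y => ?_, fun w => ?_⟩
  · simp only [Real.dist_eq, convolution_def, ContinuousLinearMap.lsmul_apply, smul_eq_mul]
    rw [← integral_sub (hint x) (hint y), ← one_mul (K * dist x y : ℝ), ← B.integral_normed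
      (μ := volume), ← integral_mul_const]
    refine abs_integral_le_integral_abs.trans (integral_mono ((hint x).sub (hint y)).abs
      (B.integrable_normed.mul_const _) fun t => ?_)
    have h1 := hφ.dist_le_mul (x - t) (y - t)
    rw [Real.dist_eq, dist_sub_right] at h1
    simp only
    rw [← mul_sub, abs_mul, abs_of_nonneg (B.nonneg_normed t)]
    exact mul_le_mul_of_nonneg_left h1 (B.nonneg_normed t)
  · refine B.dist_normed_convolution_le hφ.continuous.aestronglyMeasurable fun x hx =>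
      (hφ.dist_le_mul x w).trans ?_
    have h2 : dist x w * (K + 1) < δ := (lt_div_iff₀ (by positivity)).1 (Metric.mem_ball.1 hx)
    nlinarith [dist_nonneg (x := x) (y := w)]

section Top

variable [TopologicalSpace X] {M : Imm n ι X}

/-- functions that are Lipschitz for the chordal distance on a set -/
theorem app_chord {f : X → ℝ} {N : Set X} {K : ℝ} (hK : 0 ≤ K)
    (h : ∀ q ∈ N, ∀ q' ∈ N, |f q - f q'| ≤ K * ‖M.x q - M.x q'‖) {δ : ℝ} (hδ : 0 < δ) :
    ∃ g, M.Sm g ∧ (∀ q ∈ N, |g q - f q| ≤ δ) ∧ ∀ q, ‖M.td g q‖ ≤ K := by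
  rcases isEmpty_or_nonempty X with hX | hX
  · exact ⟨f, fun p => isEmptyElim p, fun p => isEmptyElim p, fun p => isEmptyElim p⟩
  lift K to ℝ≥0 using hK
  have h1 : ∀ q ∈ N, f (invFunOn M.x N (M.x q)) = f q := fun q hq => by
    have h2 := invFunOn_pos (f := M.x) ⟨q, hq, rfl⟩
    have h3 := h _ h2.1 q hq
    rwa [h2.2, sub_self, norm_zero, mul_zero, abs_nonpos_iff, sub_eq_zero] at h3
  obtain ⟨G, hG, h4⟩ := LipschitzOnWith.extend_real (f := fun y => f (invFunOn M.x N y))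
    (s := M.x '' N) (K := K) (LipschitzOnWith.of_dist_le_mul (by
      rintro _ ⟨q, hq, rfl⟩ _ ⟨q', hq', rfl⟩
      rw [h1 q hq, h1 q' hq', Real.dist_eq, dist_eq_norm]
      exact h q hq q' hq'))
  obtain ⟨Ψ, a1, a2, a3⟩ := exists_moll hG hδ
  refine ⟨fun q => Ψ (M.x q), M.sm_x.comp a1, fun q hq => ?_, fun q => ?_⟩
  · rw [← h1 q hq, show f (invFunOn M.x N (M.x q)) = G (M.x q) from h4 ⟨q, hq, rfl⟩]
    exact a3 _
  · rw [Imm.td_comp (M.sm_x.diffAt q) (a1.differentiable (by simp) _)]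
    refine ContinuousLinearMap.opNorm_le_bound _ K.coe_nonneg fun w =>
      ((fderiv ℝ Ψ (M.x q)).le_opNorm (M.PL q w)).trans ?_
    exact mul_le_mul (norm_fderiv_le_of_lipschitz ℝ (x₀ := M.x q) a2) (M.norm_PL_le q w)
      (norm_nonneg _) K.coe_nonneg

theorem td_sum_mul {κ : Type} (I : Finset κ) {ρ g : κ → X → ℝ} (hρ : ∀ i, M.Sm (ρ i))
    (hg : ∀ i, M.Sm (g i)) (p : X) : M.td (fun q => ∑ i ∈ I, ρ i q * g i q) p =
      ∑ i ∈ I, (ρ i p • M.td (g i) p + g i p • M.td (ρ i) p) := by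
  have h := (HasFDerivAt.fun_sum (u := I) fun i _ =>
    ((hρ i).diffAt p).hasFDerivAt.mul ((hg i).diffAt p).hasFDerivAt).fderiv
  simp only [comp_apply, (M.ch p).left_inv (M.mem p)] at h
  simp only [Imm.td]
  rw [show fderiv ℝ ((fun q => ∑ i ∈ I, ρ i q * g i q) ∘ (M.ch p).symm) (M.ch p p) = _ from h]
  ext1 w
  simp

/-- gluing of local approximations with gradient control on a set `S` -/
theorem glue_on [T2Space X] [SecondCountableTopology X] {f c η : X → ℝ} (S : Set X)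
    (hη : Continuous η) (h0 : ∀ p, 0 < η p) (h : ∀ p, ∃ N ∈ 𝓝 p, ∀ δ : ℝ, 0 < δ → ∃ g, M.Sm g ∧
      ∀ q ∈ N, q ∈ S → |g q - f q| ≤ δ ∧ ‖M.td g q‖ ≤ c q) :
    ∃ g, M.Sm g ∧ ∀ q ∈ S, |g q - f q| ≤ η q ∧ ‖M.td g q‖ ≤ c q + η q := by
  let := M.chartedSpace
  have := M.isManifold
  have : LocallyCompactSpace X := ChartedSpace.locallyCompactSpace (E (Fin n)) X
  choose N hN H using h
  choose K hK1 hK2 hK3 using fun p => local_compact_nhds (hN p)
  obtain ⟨ρ, hρ⟩ := SmoothPartitionOfUnity.exists_isSubordinate (𝓡 n) isClosed_univ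
    (fun p => interior (K p)) (fun _ => isOpen_interior)
    fun p _ => mem_iUnion.2 ⟨p, mem_interior_iff_mem_nhds.2 (hK1 p)⟩
  have hs : ∀ i, M.Sm (ρ i) := fun i => Imm.sm_iff_contMDiff.2 (ρ i).contMDiff
  set s : X → ℝ := fun q => ∑ᶠ i, ‖M.td (ρ i) q‖ with hsd
  have hz : ∀ i q, M.td (ρ i) q ≠ 0 → q ∈ tsupport (ρ i) := fun i q hq =>
    by_contra fun hq' => hq (Imm.td_eq_zero_of_notMem hq')
  have hsc : Continuous s := continuous_finsum (fun i => (hs i).td.continuous.norm)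
    (ρ.locallyFinite.closure.subset fun i q hq => hz i q (norm_ne_zero_iff.1 hq))
  have hs0 : ∀ q, 0 ≤ s q := fun q => finsum_nonneg fun _ => norm_nonneg _
  have hδ : ∀ p, ∃ δ, 0 < δ ∧ ∀ q ∈ K p, δ ≤ η q / (1 + s q) := fun p => by
    obtain ⟨q, -, hq⟩ := (hK3 p).exists_isMinOn (f := fun q => η q / (1 + s q))
      ⟨p, mem_of_mem_nhds (hK1 p)⟩ (hη.div (continuous_const.add hsc) fun q =>
        (add_pos_of_pos_of_nonneg one_pos (hs0 q)).ne').continuousOn
    exact ⟨_, div_pos (h0 q) (add_pos_of_pos_of_nonneg one_pos (hs0 q)), hq⟩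
  choose δ hδ0 hδ using hδ
  choose g hg hg' using fun p => H p (δ p) (hδ0 p)
  have key : ∀ p, (fun q => ∑ᶠ i, ρ i q * g i q) =ᶠ[𝓝 p]
      fun q => ∑ i ∈ ρ.fintsupport p, ρ i q * g i q := fun p =>
    (ρ.eventually_finsupport_subset p).mono fun q hq => finsum_eq_sum_of_support_subset _
      fun i hi => hq (ρ.mem_finsupport q |>.2 (left_ne_zero_of_mul hi))
  refine ⟨fun q => ∑ᶠ i, ρ i q * g i q, Imm.sm_of_local fun p =>
    ⟨_, Imm.sm_sum _ fun i _ => (hs i).mul (hg i), key p⟩, fun p hp => ?_⟩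
  set I := ρ.fintsupport p
  have a1 : ∑ i ∈ I, ρ i p = 1 := ρ.sum_finsupport' p (mem_univ p) (ρ.finsupport_subset_fintsupport p)
  have a2 : ∀ i ∈ I, p ∈ K i := fun i hi =>
    interior_subset (hρ i ((ρ.mem_fintsupport_iff p i).1 hi))
  have a3 : ∀ i ∈ I, |g i p - f p| ≤ η p / (1 + s p) := fun i hi =>
    (hg' i p (hK2 i (a2 i hi)) hp).1.trans (hδ i p (a2 i hi))
  have a4 : η p / (1 + s p) ≤ η p := div_le_self (h0 p).le (by linarith [hs0 p])
  have a5 : ∑ i ∈ I, M.td (ρ i) p = 0 := by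
    have b1 := td_sum_mul I hs (fun _ => Imm.sm_const (M := M) (1 : ℝ)) p
    rw [Imm.td_congr (g := fun _ => (1 : ℝ)) ((ρ.eventually_finsupport_subset p).mono
      fun q hq => by simpa using ρ.sum_finsupport' q (mem_univ q) hq), Imm.td_const] at b1
    simpa [Imm.td_const] using b1.symm
  have a6 : s p = ∑ i ∈ I, ‖M.td (ρ i) p‖ := finsum_eq_sum_of_support_subset _ fun i hi =>
    (ρ.mem_fintsupport_iff p i).2 (hz i p (norm_ne_zero_iff.1 hi))
  constructor
  · rw [(key p).self_of_nhds, ← one_mul (f p), ← one_mul (η p), ← a1, Finset.sum_mul,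
      Finset.sum_mul, ← Finset.sum_sub_distrib]
    refine (Finset.abs_sum_le_sum_abs _ _).trans (Finset.sum_le_sum fun i hi => ?_)
    rw [← mul_sub, abs_mul, abs_of_nonneg (ρ.nonneg i p)]
    exact mul_le_mul_of_nonneg_left ((a3 i hi).trans a4) (ρ.nonneg i p)
  · rw [Imm.td_congr (key p), td_sum_mul I hs hg, Finset.sum_add_distrib]
    have b2 : ∑ i ∈ I, g i p • M.td (ρ i) p = ∑ i ∈ I, (g i p - f p) • M.td (ρ i) p := by
      simp only [sub_smul, Finset.sum_sub_distrib, ← Finset.smul_sum, a5, smul_zero, sub_zero]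
    rw [b2]
    refine (norm_add_le _ _).trans (add_le_add ((norm_sum_le _ _).trans ?_)
      ((norm_sum_le _ _).trans ?_))
    · rw [← one_mul (c p), ← a1, Finset.sum_mul]
      refine Finset.sum_le_sum fun i hi => ?_
      rw [norm_smul, Real.norm_of_nonneg (ρ.nonneg i p)]
      exact mul_le_mul_of_nonneg_left (hg' i p (hK2 i (a2 i hi)) hp).2 (ρ.nonneg i p)
    · calc ∑ i ∈ I, ‖(g i p - f p) • M.td (ρ i) p‖ ≤ ∑ i ∈ I, η p / (1 + s p) * ‖M.td (ρ i) p‖ :=
          Finset.sum_le_sum fun i hi => by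
            rw [norm_smul]
            exact mul_le_mul_of_nonneg_right (a3 i hi) (norm_nonneg _)
        _ = η p / (1 + s p) * s p := by rw [← Finset.mul_sum, ← a6]
        _ ≤ η p := by
          rw [div_mul_eq_mul_div, div_le_iff₀ (by linarith [hs0 p])]
          nlinarith [h0 p]

theorem glue_app [T2Space X] [SecondCountableTopology X] {f c η : X → ℝ} (hη : Continuous η)
    (h0 : ∀ p, 0 < η p) (h : ∀ p, ∃ N ∈ 𝓝 p, ∀ δ : ℝ, 0 < δ → ∃ g, M.Sm g ∧
      ∀ q ∈ N, |g q - f q| ≤ δ ∧ ‖M.td g q‖ ≤ c q) :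
    ∃ g, M.Sm g ∧ ∀ q, |g q - f q| ≤ η q ∧ ‖M.td g q‖ ≤ c q + η q := by
  obtain ⟨g, h1, h2⟩ := glue_on (M := M) (f := f) (c := c) univ hη h0 fun p =>
    let ⟨N, hN, H⟩ := h p
    ⟨N, hN, fun δ hδ => let ⟨g, a, b⟩ := H δ hδ; ⟨g, a, fun q hq _ => b q hq⟩⟩
  exact ⟨g, h1, fun q => h2 q trivial⟩

end Top

variable [MetricSpace X] [SecondCountableTopology X] {M : Imm n ι X}

/-- **App**, variable form: `c` is a continuous bound of the local Lipschitz constant of `f` -/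
theorem Len.app_var (hL : Len M) {f c η : X → ℝ} (hc : Continuous c) (hc0 : ∀ p, 0 ≤ c p)
    (hη : Continuous η) (h0 : ∀ p, 0 < η p) (h : ∀ p, ∀ c', c p < c' → ∃ N ∈ 𝓝 p,
      ∀ q ∈ N, ∀ q' ∈ N, |f q - f q'| ≤ c' * dist q q') :
    ∃ g, M.Sm g ∧ ∀ q, |g q - f q| ≤ η q ∧ ‖M.td g q‖ ≤ c q + η q := by
  obtain ⟨g, h1, h2⟩ := glue_app (M := M) (f := f) (c := fun q => c q + η q / 2)
    (hη.div_const 2) (fun p => half_pos (h0 p)) fun p => by
      obtain ⟨c2, a1, a2⟩ := exists_between (show c p < c p + η p / 2 by linarith [h0 p])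
      obtain ⟨c1, a3, a4⟩ := exists_between a1
      have a5 : 0 < c1 := (hc0 p).trans_lt a3
      obtain ⟨N, hN, H⟩ := h p c1 a3
      obtain ⟨U, hU, H'⟩ := hL.loc p (c2 / c1 - 1) (sub_pos.2 ((one_lt_div a5).2 a4))
      have a6 : ∀ᶠ q in 𝓝 p, c2 < c q + η q / 2 :=
        (hc.add (hη.div_const 2)).continuousAt.eventually (lt_mem_nhds a2)
      refine ⟨_, inter_mem (inter_mem hN hU) a6, fun δ hδ => ?_⟩
      obtain ⟨g, b1, b2, b3⟩ := app_chord (M := M) (f := f) (N := N ∩ U) (a5.trans a4).le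
        (fun q hq q' hq' => (H q hq.1 q' hq'.1).trans ((mul_le_mul_of_nonneg_left
          (H' q hq.2 q' hq'.2) a5.le).trans (le_of_eq (by field_simp; ring)))) hδ
      exact ⟨g, b1, fun q hq => ⟨b2 q hq.1, (b3 q).trans (le_of_lt hq.2)⟩⟩
  exact ⟨g, h1, fun q => ⟨by linarith [(h2 q).1, h0 q], by linarith [(h2 q).2]⟩⟩

variable [DecidableEq ι]

/-- **App** -/
theorem Len.app (hL : Len M) {f : X → ℝ} {c ε : ℝ} (hc : 0 ≤ c) (hε : 0 < ε)
    (h : ∀ p q, |f p - f q| ≤ c * dist p q) :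
    ∃ g, M.Sm g ∧ ∀ p, |g p - f p| ≤ ε ∧ M.pre.gam g g p ≤ (c + ε) ^ 2 := by
  obtain ⟨g, h1, h2⟩ := hL.app_var (f := f) (continuous_const (y := c)) (fun _ => hc)
    (continuous_const (y := ε)) (fun _ => hε) fun p c' hc' => ⟨univ, univ_mem, fun q _ q' _ =>
      (h q q').trans (mul_le_mul_of_nonneg_right hc'.le dist_nonneg)⟩
  exact ⟨g, h1, fun p => ⟨(h2 p).1, (norm_td_le (by linarith)).1 (h2 p).2⟩⟩

end Crest.Agent.N228

end
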