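import Crest.Agent.N228.O.Defs
import Crest.Agent.N222.F.Bump

/-!
# Row 228, outer layer: smooth approximation of Lipschitz functions with gradient control
-/

set_option autoImplicit false
open MeasureTheory Set Filter Topology Function
open scoped ContDiff Manifold Convolution NNReal

noncomputable section

namespace Crest.Agent.N228
open Crest.Agent.N222

namespace App

/-- mollification of a Lipschitz function -/
theorem moll {ι : Type} [Fintype ι] {F : E ι → ℝ} {K : ℝ≥0} (hF : LipschitzWith K F) {a : ℝ}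
    (ha : 0 < a) : ∃ G : E ι → ℝ, ContDiff ℝ ∞ G ∧ LipschitzWith K G ∧ ∀ y, |G y - F y| ≤ K * a := by
  let φ : ContDiffBump (0 : E ι) := ⟨a / 2, a, half_pos ha, half_lt_self ha⟩
  have hc := hF.continuous
  refine ⟨φ.normed volume ⋆[ContinuousLinearMap.lsmul ℝ ℝ, volume] F,
    φ.hasCompactSupport_normed.contDiff_convolution_left _ φ.contDiff_normed hc.locallyIntegrable,
    LipschitzWith.of_dist_le_mul fun x y => ?_, fun y => ?_⟩
  · have hi : ∀ z : E ι, Integrable fun t => φ.normed volume t * F (z - t) := fun z =>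
      (φ.continuous_normed.mul (hc.comp (continuous_const.sub continuous_id))).integrable_of_hasCompactSupport
        φ.hasCompactSupport_normed.mul_right
    simp only [convolution_def, ContinuousLinearMap.lsmul_apply, smul_eq_mul]
    rw [dist_eq_norm, ← integral_sub (hi x) (hi y)]
    refine (norm_integral_le_of_norm_le (φ.integrable_normed.mul_const (K * dist x y))
      (Eventually.of_forall fun t => ?_)).trans ?_
    · rw [← mul_sub, norm_mul, Real.norm_of_nonneg (φ.nonneg_normed t)]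
      refine mul_le_mul_of_nonneg_left ?_ (φ.nonneg_normed t)
      have := hF.dist_le_mul (x - t) (y - t)
      rwa [dist_sub_right, dist_eq_norm] at this
    · rw [integral_mul_const, φ.integral_normed, one_mul]
  · rw [← Real.dist_eq]
    refine φ.dist_normed_convolution_le hc.aestronglyMeasurable fun x hx => ?_
    exact (hF.dist_le_mul x y).trans (mul_le_mul_of_nonneg_left (Metric.mem_ball.1 hx).le K.2)

variable {n : ℕ} {ι : Type} [Fintype ι] [DecidableEq ι] {X : Type} [MetricSpace X] {M : Imm n ι X}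

/-- the local statement -/
theorem loc (hM : Injective M.x) (hL : Len M) {f : X → ℝ} (hf : ∀ p q, |f p - f q| ≤ dist p q)
    {η : ℝ} (hη : 0 < η) (p : X) : ∃ N ∈ 𝓝 p, ∀ a : ℝ, 0 < a →
      ∃ g, M.Sm g ∧ (∀ q, ‖M.grad g q‖ ≤ 1 + η) ∧ ∀ q ∈ N, |g q - f q| ≤ a := by
  obtain ⟨N, hN, h⟩ := hL.loc p η hη
  have : Nonempty X := ⟨p⟩
  let K : ℝ≥0 := ⟨1 + η, by positivity⟩
  have h1 : LipschitzOnWith K (fun y => f (invFun M.x y)) (M.x '' N) := by
    refine LipschitzOnWith.of_dist_le_mul ?_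
    rintro _ ⟨q, hq, rfl⟩ _ ⟨q', hq', rfl⟩
    simp only [leftInverse_invFun hM q, leftInverse_invFun hM q']
    rw [Real.dist_eq, dist_eq_norm]
    exact (hf q q').trans (h q hq q' hq')
  obtain ⟨F, hF, hFe⟩ := h1.extend_real
  refine ⟨N, hN, fun a ha => ?_⟩
  obtain ⟨G, hG, hGK, hGF⟩ := moll hF (a := a / (1 + η)) (by positivity)
  refine ⟨fun q => G (M.x q), M.sm_x.comp hG, fun q => ?_, fun q hq => ?_⟩
  · rw [← Imm.norm_td, Imm.td_comp (M.sm_x.diffAt q) (hG.differentiable (by simp) _)]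
    refine ContinuousLinearMap.opNorm_le_bound _ (by positivity) fun w => ?_
    have h2 : ‖fderiv ℝ G (M.x q)‖ ≤ K := norm_fderiv_le_of_lipschitz ℝ hGK
    exact ((fderiv ℝ G (M.x q)).le_of_opNorm_le h2 _).trans
      (mul_le_mul_of_nonneg_left (M.norm_PL_le q w) K.2)
  · have h2 := hFe (mem_image_of_mem M.x hq)
    simp only [leftInverse_invFun hM q] at h2
    rw [h2]
    refine (hGF _).trans (le_of_eq ?_)
    show (1 + η) * (a / (1 + η)) = a
    field_simp

/-- the gradient of a glued function -/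
theorem grad_glue {κ : Type} (s : Finset κ) {ρ g : κ → X → ℝ} (hρ : ∀ i, M.Sm (ρ i))
    (hg : ∀ i, M.Sm (g i)) {G : X → ℝ} {p : X} (c : ℝ)
    (h : G =ᶠ[𝓝 p] fun q => ∑ i ∈ s, ρ i q * (g i q - c) + c) :
    M.grad G p = ∑ i ∈ s, (ρ i p • M.grad (g i) p + (g i p - c) • M.grad (ρ i) p) := by
  ext a
  have h1 : ∀ i, M.Sm fun q => ρ i q * (g i q - c) := fun i => (hρ i).mul ((hg i).sub (Imm.sm_const c))
  show M.pre.D a G p = _
  rw [Imm.D_congr h, Imm.D_add ((Imm.sm_sum s fun i _ => h1 i).diffAt p) ((Imm.sm_const c).diffAt p),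
    Imm.D_const, add_zero, Imm.D_sum s fun i _ => (h1 i).diffAt p]
  simp only [WithLp.ofLp_sum, Finset.sum_apply, WithLp.ofLp_add, WithLp.ofLp_smul, Pi.add_apply,
    Pi.smul_apply, smul_eq_mul]
  refine Finset.sum_congr rfl fun i _ => ?_
  rw [Imm.D_mul ((hρ i).diffAt p) (((hg i).sub (Imm.sm_const c)).diffAt p),
    Imm.D_sub ((hg i).diffAt p) ((Imm.sm_const c).diffAt p), Imm.D_const, sub_zero, mul_comm _ (g i p - c)]
  rfl

end App

open App in
theorem app : AppStmt := by
  intro n ι _ _ X _ _ _ _ _ M hM hL f ε hε hf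
  let := M.chartedSpace
  have := M.isManifold
  have hη : 0 < ε / 2 := half_pos hε
  choose N hN hloc using loc hM hL hf hη
  obtain ⟨ρ, hρ⟩ := SmoothPartitionOfUnity.exists_isSubordinate (I := 𝓡 n) (s := (univ : Set X))
    isClosed_univ (fun p : X => interior (N p) ∩ Metric.ball p 1)
    (fun p => isOpen_interior.inter Metric.isOpen_ball)
    (fun p _ => mem_iUnion.2 ⟨p, mem_interior_iff_mem_nhds.2 (hN p), Metric.mem_ball_self one_pos⟩)
  have hs : ∀ i, M.Sm (ρ i) := fun i => Imm.sm_iff_contMDiff.2 (ρ i).contMDiff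
  have hsupp : ∀ i, support (fun q => ‖M.grad (ρ i) q‖) ⊆ tsupport (ρ i) := fun i q hq => by
    by_contra h
    apply hq
    show ‖M.grad (ρ i) q‖ = 0
    rw [← Imm.norm_td, Imm.td_eq_zero_of_notMem h, norm_zero]
  let Φ : X → ℝ := fun q => ∑ᶠ i, ‖M.grad (ρ i) q‖
  have hΦ : Continuous Φ := continuous_finsum (fun i => (hs i).grad.continuous.norm)
    (ρ.locallyFinite.closure.subset hsupp)
  have hC : ∀ i : X, ∃ C : ℝ, 0 < C ∧ ∀ q ∈ Metric.closedBall i 1, Φ q ≤ C := fun i => by
    obtain ⟨C, hC⟩ := (isCompact_closedBall i 1).bddAbove_image hΦ.continuousOn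
    exact ⟨max C 1, by positivity, fun q hq => (hC (mem_image_of_mem Φ hq)).trans (le_max_left _ _)⟩
  choose C hC0 hC using hC
  choose g hg hg1 hg2 using fun i => hloc i (min ε (ε / 2 / C i))
    (lt_min hε (div_pos hη (hC0 i)))
  have key : ∀ p (c : ℝ), (fun q => ∑ᶠ i, ρ i q * g i q) =ᶠ[𝓝 p]
      fun q => ∑ i ∈ ρ.fintsupport p, ρ i q * (g i q - c) + c := by
    intro p c
    filter_upwards [ρ.eventually_finsupport_subset p] with q hq
    rw [finsum_eq_sum_of_support_subset (s := ρ.fintsupport p) _ fun i hi =>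
      hq ((ρ.mem_finsupport q).2 (left_ne_zero_of_mul hi))]
    simp only [mul_sub, Finset.sum_sub_distrib, ← Finset.sum_mul]
    rw [ρ.sum_finsupport' q (mem_univ q) hq]
    ring
  refine ⟨fun q => ∑ᶠ i, ρ i q * g i q, Imm.sm_of_local fun p => ⟨_, (Imm.sm_sum _ fun i _ =>
    (hs i).mul ((hg i).sub (Imm.sm_const 0))).add (Imm.sm_const 0), key p 0⟩, fun p => ?_⟩
  have h1 : ∑ i ∈ ρ.fintsupport p, ρ i p = 1 :=
    ρ.sum_finsupport' p (mem_univ p) (ρ.finsupport_subset_fintsupport p)
  have h2 : ∀ i ∈ ρ.fintsupport p, |g i p - f p| ≤ min ε (ε / 2 / C i) := fun i hi =>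
    hg2 i p (interior_subset (hρ i ((ρ.mem_fintsupport_iff p i).1 hi)).1)
  constructor
  · have h3 := (key p (f p)).eq_of_nhds
    simp only at h3 ⊢
    rw [h3, add_sub_cancel_right]
    refine (Finset.abs_sum_le_sum_abs _ _).trans ?_
    calc _ ≤ ∑ i ∈ ρ.fintsupport p, ρ i p * ε := Finset.sum_le_sum fun i hi => by
          rw [abs_mul, abs_of_nonneg (ρ.nonneg i p)]
          exact mul_le_mul_of_nonneg_left ((h2 i hi).trans (min_le_left _ _)) (ρ.nonneg i p)
      _ = ε := by rw [← Finset.sum_mul, h1, one_mul]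
  · rw [Imm.gam_self_eq, grad_glue _ hs hg (f p) (key p (f p))]
    refine pow_le_pow_left₀ (norm_nonneg _) ((norm_sum_le _ _).trans ?_) 2
    have h3 : Φ p = ∑ i ∈ ρ.fintsupport p, ‖M.grad (ρ i) p‖ :=
      finsum_eq_sum_of_support_subset _ fun i hi => (ρ.mem_fintsupport_iff p i).2 (hsupp i hi)
    have h4 : ∀ i ∈ ρ.fintsupport p,
        ‖ρ i p • M.grad (g i) p + (g i p - f p) • M.grad (ρ i) p‖ ≤
          ρ i p * (1 + ε / 2) + ε / 2 / Φ p * ‖M.grad (ρ i) p‖ := by
      intro i hi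
      refine (norm_add_le _ _).trans (add_le_add ?_ ?_)
      · rw [norm_smul, Real.norm_of_nonneg (ρ.nonneg i p)]
        exact mul_le_mul_of_nonneg_left (hg1 i p) (ρ.nonneg i p)
      · rw [norm_smul, Real.norm_eq_abs]
        rcases (norm_nonneg (M.grad (ρ i) p)).eq_or_lt with h0 | h0
        · rw [← h0, mul_zero, mul_zero]
        · have h5 : 0 < Φ p := by
            rw [h3]
            exact h0.trans_le (Finset.single_le_sum (f := fun i => ‖M.grad (ρ i) p‖)
              (fun _ _ => norm_nonneg _) hi)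
          refine mul_le_mul_of_nonneg_right ((h2 i hi).trans ((min_le_right _ _).trans ?_)) h0.le
          exact div_le_div_of_nonneg_left hη.le h5 (hC i p
            (Metric.ball_subset_closedBall (hρ i ((ρ.mem_fintsupport_iff p i).1 hi)).2))
    refine (Finset.sum_le_sum h4).trans ?_
    rw [Finset.sum_add_distrib, ← Finset.sum_mul, h1, ← Finset.mul_sum, ← h3]
    have h5 : ε / 2 / Φ p * Φ p ≤ ε / 2 := by
      rcases eq_or_ne (Φ p) 0 with h0 | h0
      · rw [h0, mul_zero]; exact hη.le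
      · rw [div_mul_cancel₀ _ h0]
    linarith

end Crest.Agent.N228

end
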