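import Crest.Agent.N228.O.Br0
import Crest.Agent.N222.F.Meas
import Crest.Agent.R241.AF3

/-!
# Row 228, the bridge: the area measure of an embedded manifold is the Hausdorff measure
-/

set_option autoImplicit false
open MeasureTheory Set Filter Topology Function

namespace Crest.Agent.N228
open Crest.Agent.N222

namespace Ar

variable {n N : ℕ} {X : Type} [TopologicalSpace X] [T2Space X] [SecondCountableTopology X]
  [MeasurableSpace X] [BorelSpace X] (M : Imm n (Fin N) X)

theorem memb (h : IsEmbedding M.x) : MeasurableEmbedding M.x := by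
  have := M.locallyCompact
  obtain ⟨K, hK, hU⟩ := isSigmaCompact_range M.continuous_x
  exact h.measurableEmbedding (hU ▸ MeasurableSet.iUnion fun k => (hK k).measurableSet)

theorem comap_eq (h : IsEmbedding M.x) :
    Measure.comap M.x (Measure.euclideanHausdorffMeasure n) = M.mu := by
  refine Imm.eq_mu fun p => ⟨M.ch p, M.isChart p, M.mem p, ?_⟩
  have he := M.isChart p
  generalize M.ch p = e at he
  ext s hs
  have e1 : M.x '' (s ∩ e.source) = (M.x ∘ e.symm) '' (e.target ∩ e.symm ⁻¹' s) := by
    rw [image_comp]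
    congr 1
    ext q
    constructor
    · rintro ⟨h1, h2⟩
      exact ⟨e q, ⟨e.map_source h2, by rwa [mem_preimage, e.left_inv h2]⟩, e.left_inv h2⟩
    · rintro ⟨z, ⟨h1, h2⟩, rfl⟩
      exact ⟨h2, e.map_target h1⟩
  rw [Measure.restrict_apply hs, (memb M h).comap_apply, Ms0.cm_apply he hs, e1,
    R241.AF.muHE_image_Euc e.open_target inter_subset_left (Ms0.meas_pre e hs)
      (he.sm.differentiableOn (by simp))
      (fun z hz z' hz' hzz => e.symm.injOn hz.1 hz'.1 (h.injective hzz))]
  simp only [jac_eq_normDet, R241.AF.jac]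

end Ar

theorem area : AreaStmt := by
  intro n N X _ _ _ _ _ M h
  have hc := Measure.addHaarScalarFactor_volume_hausdorffMeasure_ne_zero n
  set c := Measure.addHaarScalarFactor (volume : Measure (EuclideanSpace ℝ (Fin n)))
    (Measure.hausdorffMeasure (n : ℝ)) with hcd
  have hc0 : (0 : ℝ) < c := NNReal.coe_pos.2 (pos_iff_ne_zero.2 hc)
  refine ⟨(c : ℝ)⁻¹, inv_pos.2 hc0, fun f => ?_⟩
  rw [← (Ar.memb M h).integral_map, ← Ar.comap_eq M h, (Ar.memb M h).map_comap,
    Measure.euclideanHausdorffMeasure_def, Measure.restrict_smul, integral_smul_nnreal_measure,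
    ← hcd, NNReal.smul_def, smul_eq_mul, inv_mul_cancel_left₀ hc0.ne']

end Crest.Agent.N228
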