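import Crest.Agent.N228.O.Defs

/-!
# Row 228, the bridge: the two halves
-/

set_option autoImplicit false
open MeasureTheory Set Filter Topology Function
open Crest.GeometryTopology.Submanifold

namespace Crest.Agent.N228
open Crest.Agent.N222

/-- the analytic half of the bridge -/
def Br1Stmt : Prop := ∀ (n N : ℕ) (S : Set (EuclideanSpace ℝ (Fin N))),
  IsSubmanifold n N S → IsClosed S →
  ∀ s : EuclideanSpace ℝ (Fin N) → ℝ, scalarField n N S s → SpectralScalarBound S n s 1 →
  ∃ M : Imm n (Fin N) S, (∀ p, M.x p = p) ∧ M.Form fun _ => 1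

/-- the area measure of an embedded manifold is the Hausdorff measure -/
def AreaStmt : Prop := ∀ (n N : ℕ) (X : Type) [TopologicalSpace X] [T2Space X]
  [SecondCountableTopology X] [MeasurableSpace X] [BorelSpace X] (M : Imm n (Fin N) X),
  IsEmbedding M.x → ∃ c : ℝ, 0 < c ∧ ∀ f : EuclideanSpace ℝ (Fin N) → ℝ,
    ∫ y in range M.x, f y ∂(Measure.hausdorffMeasure (n : ℝ)) = c * ∫ p, f (M.x p) ∂M.mu

/-- test functions extend, and the tangential gradient is the gradient -/
def ExtStmt : Prop := ∀ (n N : ℕ) (X : Type) [TopologicalSpace X] [T2Space X]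
  [SecondCountableTopology X] (M : Imm n (Fin N) X), IsClosedEmbedding M.x → ∀ z, M.Tst z →
    ∃ φ : EuclideanSpace ℝ (Fin N) → ℝ, ContDiff ℝ (⊤ : ℕ∞) φ ∧ HasCompactSupport φ ∧
      ∀ p, φ (M.x p) = z p ∧ tangGradSq (range M.x) φ (M.x p) = M.pre.gam z z p

end Crest.Agent.N228
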