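import Crest.Agent.N228.O.Defs
import Crest.Agent.N222.T.Main
import Crest.Agent.N222.F.Meas
import Crest.Agent.N222.F.Bump
import Crest.Agent.N222.F.Res
import Crest.Agent.R241.AF2
import Crest.Agent.R208.G1

/-!
# Row 228, bridge (helper55), part 1: the spectral hypothesis as `Form 1`
-/

set_option autoImplicit false
set_option linter.unusedSectionVars false
open MeasureTheory Set Filter Topology Function
open scoped ContDiff InnerProductSpace RealInnerProductSpace Manifold
open Crest.GeometryTopology.Submanifold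

noncomputable section

namespace Crest.Agent.N228.Br
open Crest.Agent.N222

section Emb

variable {d : ℕ} {ι X : Type} [Fintype ι] [TopologicalSpace X] (M : Imm d ι X)

/-- smooth functions on a closed embedded manifold extend -/
theorem exists_amb0 (hM : IsClosedEmbedding M.x) {z : X → ℝ} (hz : M.Sm z) :
    ∃ φ : E ι → ℝ, ContDiff ℝ ∞ φ ∧ ∀ p, φ (M.x p) = z p := by
  obtain ⟨g, hg⟩ := exists_contMDiffMap_forall_mem_convex_of_local (n := (⊤ : ℕ∞)) 𝓘(ℝ, E ι)
    (t := fun y : E ι => {c : ℝ | ∀ p, M.x p = y → c = z p})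
    (fun y a ha b hb s t _ _ hst p hp => by
      rw [ha p hp, hb p hp, smul_eq_mul, smul_eq_mul, ← add_mul, hst, one_mul])
    fun y => by
      by_cases hy : y ∈ range M.x
      · obtain ⟨p, rfl⟩ := hy
        obtain ⟨e, L, he, hp, -, h2, -⟩ := M.exists_proj_chart p
        obtain ⟨O, hO, h3⟩ := hM.isInducing.isOpen_iff.1 e.open_source
        set A : E ι → E (Fin d) := fun y =>
          ContinuousLinearMap.adjoint L.toContinuousLinearMap (y - M.x p) with hA
        have hAc : ContDiff ℝ ∞ A :=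
          (ContinuousLinearMap.contDiff _).comp (contDiff_id.sub contDiff_const)
        refine ⟨O ∩ A ⁻¹' e.target, (hO.inter (e.open_target.preimage hAc.continuous)).mem_nhds
          ⟨by rwa [← h3] at hp, by
            have := e.map_source hp
            rwa [h2 p] at this⟩,
          fun y => z (e.symm (A y)), ?_, ?_⟩
        · exact ((hz.chart he).comp hAc.contDiffOn fun _ h => h.2).contMDiffOn
        · rintro _ hq q rfl
          have h4 : q ∈ e.source := by rw [← h3]; exact hq.1
          change z (e.symm (ContinuousLinearMap.adjoint L.toContinuousLinearMap _)) = _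
          rw [← h2 q, e.left_inv h4]
      · exact ⟨(range M.x)ᶜ, hM.isClosed_range.isOpen_compl.mem_nhds hy, fun _ => 0,
          contMDiffOn_const, fun y hy p hp => absurd ⟨p, hp⟩ hy⟩
  exact ⟨g, g.contMDiff.contDiff, fun p => hg _ p rfl⟩

theorem exists_amb (hM : IsClosedEmbedding M.x) {z : X → ℝ} (hz : M.Tst z) :
    ∃ φ : E ι → ℝ, ContDiff ℝ ∞ φ ∧ HasCompactSupport φ ∧ ∀ p, φ (M.x p) = z p := by
  obtain ⟨g, hg, h1⟩ := exists_amb0 M hM hz.sm
  obtain ⟨R, hR⟩ := (hz.cs.isCompact.image M.continuous_x).isBounded.subset_closedBall 0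
  let χ : ContDiffBump (0 : E ι) := ⟨|R| + 1, |R| + 2, by positivity, by linarith⟩
  refine ⟨fun y => χ y * g y, χ.contDiff.mul hg, χ.hasCompactSupport.mul_right, fun p => ?_⟩
  by_cases h : z p = 0
  · simp [h1, h]
  · change χ _ * g _ = _
    rw [h1, χ.one_of_mem_closedBall (Metric.closedBall_subset_closedBall
      (by change R ≤ |R| + 1; linarith [le_abs_self R]) (hR ⟨p, subset_tsupport _ h, rfl⟩)), one_mul]

variable [T2Space X] [SecondCountableTopology X] [MeasurableSpace X] [BorelSpace X]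

theorem mu_eq (hM : IsClosedEmbedding M.x) : (μHE[d] : Measure (E ι)).comap M.x = M.mu := by
  have he : MeasurableEmbedding M.x := hM.measurableEmbedding
  refine Imm.eq_mu fun p => ⟨M.ch p, M.isChart p, M.mem p, ?_⟩
  ext s hs
  set e := M.ch p
  have hc := M.isChart p
  rw [Measure.restrict_apply hs, he.comap_apply, Ms0.cm_apply hc hs]
  have h1 := R241.AF.lintegral_image_eq (f := M.x ∘ e.symm) (f' := fderiv ℝ (M.x ∘ e.symm))
    (Ms0.meas_pre e hs) (fun z hz => (hc.hasFDerivAt hz.1).hasFDerivWithinAt)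
    (fun z hz w hw h => e.symm.injOn hz.1 hw.1 (hM.injective h)) fun _ => 1
  have h2 : (M.x ∘ e.symm) '' (e.target ∩ e.symm ⁻¹' s) = M.x '' (s ∩ e.source) := by
    rw [image_comp]
    congr 1
    ext q
    exact ⟨fun ⟨z, hz, h⟩ => h ▸ ⟨hz.2, e.map_target hz.1⟩, fun h => ⟨e q,
      ⟨e.map_source h.2, by rw [mem_preimage, e.left_inv h.2]; exact h.1⟩, e.left_inv h.2⟩⟩
  rw [h2, finrank_euclideanSpace_fin, setLIntegral_one] at h1
  rw [h1]
  simp only [mul_one, jac_eq_normDet, R241.AF.jac]
  rfl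

theorem integral_eq (hM : IsClosedEmbedding M.x) : ∃ c : ℝ, 0 ≤ c ∧ ∀ g : E ι → ℝ,
    ∫ p, g (M.x p) ∂M.mu = c * ∫ y in range M.x, g y ∂(μH[(d : ℝ)] : Measure (E ι)) := by
  have he : MeasurableEmbedding M.x := hM.measurableEmbedding
  refine ⟨(Measure.addHaarScalarFactor (volume : Measure (EuclideanSpace ℝ (Fin d))) μH[d] : NNReal),
    NNReal.coe_nonneg _, fun g => ?_⟩
  rw [← mu_eq M hM, ← he.integral_map, he.map_comap, Measure.euclideanHausdorffMeasure_def,
    Measure.restrict_smul, integral_smul_nnreal_measure]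
  rfl

end Emb

variable {n N : ℕ} {S : Set (Euc N)}

open Crest.Agent.N222.D Crest.Agent.R247 Crest.Agent.R202.Tens Crest.GeometryTopology.CoordMetric in
theorem exists_imm (hS : IsSubmanifold n N S) : ∃ M : Imm n (Fin N) S, M.x = Subtype.val ∧
    (∀ s, scalarField n N S s → ∀ q : S, M.pre.scal q = s q) ∧
    ∀ q : S, Submodule.span ℝ (tangentConeAt ℝ S q) =
      LinearMap.range (M.J q : Euc n →ₗ[ℝ] Euc N) := by
  obtain ⟨R, hR, -⟩ := sub n N S hS
  refine ⟨T.immOf R Subtype.val (T.sub_sm hR) (T.sub_G hR), rfl, fun s hs q => ?_, fun q => ?_⟩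
  · obtain ⟨p, f, V, h, hV, hG, hf⟩ := hR (R.idx q)
    have hy : R.c (R.idx q) q ∈ V := hV ▸ R.mem_target q
    have h1 : f (R.c (R.idx q) q) = q := by
      rw [← hf _ hy, (R.c _).left_inv (R.idx_mem q)]
    rw [hs q q.2 _ _ (h1 ▸ param_shift h hy), scalar_shift, T.scal_chart,
      ((egr n N f V h.isOpen h.contDiffOn h.injective_fderiv).2 _ hy).2, ← hG]
    refine scal_congr ?_
    filter_upwards [(R.c (R.idx q)).open_target.mem_nhds (R.mem_target q)] with y hy
    exact (T.sub_G hR _ y hy).symm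
  · obtain ⟨p, f, V, h, hV, hG, hf⟩ := hR (R.idx q)
    have hy : R.c (R.idx q) q ∈ V := hV ▸ R.mem_target q
    have h1 : f (R.c (R.idx q) q) = q := by
      rw [← hf _ hy, (R.c _).left_inv (R.idx_mem q)]
    have e : (Subtype.val ∘ (R.c (R.idx q)).symm) =ᶠ[𝓝 (R.c (R.idx q) q)] f := by
      filter_upwards [h.isOpen.mem_nhds hy] with z hz using hf z hz
    rw [R208.span_tangentConeAt hS q.2, ← h1, ← R241.D.range_fderiv_eq_Tan h hy, ← e.fderiv_eq]
    rfl

theorem exists_form (hS : IsSubmanifold n N S) (hc : IsClosed S) {s : Euc N → ℝ}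
    (hs : scalarField n N S s) (hb : SpectralScalarBound S n s 1) :
    ∃ M : Imm n (Fin N) S, M.x = Subtype.val ∧ M.Form fun _ => 1 := by
  obtain ⟨M, hx, h1, h2⟩ := exists_imm hS
  have hM : IsClosedEmbedding M.x := hx ▸ hc.isClosedEmbedding_subtypeVal
  have hr : range M.x = S := by rw [hx]; exact Subtype.range_coe
  refine ⟨M, hx, fun z hz => ?_⟩
  obtain ⟨φ, hφ, hcs, e⟩ := exists_amb M hM hz
  obtain ⟨c, hc0, hc⟩ := integral_eq M hM
  obtain rfl : z = fun p => φ (M.x p) := funext fun p => (e p).symm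
  have h3 := mul_le_mul_of_nonneg_left (hb φ hφ hcs) hc0
  rw [one_mul, ← hr, ← hc, ← hc, hr] at h3
  have h4 : ∀ p : S, tangGradSq S φ (M.x p) =
      M.pre.gam (fun p => φ (M.x p)) (fun p => φ (M.x p)) p := fun p => by
    have hxp : M.x p = p := congrFun hx p
    rw [Imm.gam_self_eq, tangGradSq]
    congr 2
    have hd := hφ.differentiable (by simp) (M.x p)
    have h5 : M.grad (fun p => φ (M.x p)) p = M.PL p (gradient φ (M.x p)) := by
      refine ext_inner_right ℝ fun w => ?_
      rw [← Imm.td_eq_inner, Imm.td_comp (M.sm_x.diffAt p) hd, M.PL_symm, inner_gradient_left]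
      rfl
    rw [h5]
    refine Submodule.eq_starProjection_of_mem_of_inner_eq_zero ?_ fun w hw => ?_
    · rw [hxp, h2]; exact Imm.PL_mem_range (M.isChart p) (M.mem p) _
    · rw [hxp, h2] at hw
      obtain ⟨v, rfl⟩ := hw
      rw [real_inner_comm, M.PL_eq]
      exact inner_sub_proj (M.J_inj p) v _
  have h5 : ∀ p : S, s (M.x p) = M.pre.scal p := fun p => by rw [h1 s hs p, hx]
  simp only [h4, h5] at h3
  have i1 : Integrable (fun p => φ (M.x p) ^ 2) M.mu :=
    Imm.integrable_of_support hz.cs (hz.sm.pow 2).continuous fun p hp => by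
      simp [image_eq_zero_of_notMem_tsupport hp]
  have i2 : Integrable (fun p => 4 * M.pre.gam (fun p => φ (M.x p)) (fun p => φ (M.x p)) p +
      M.pre.scal p * φ (M.x p) ^ 2) M.mu :=
    Imm.integrable_of_support hz.cs (((Imm.sm_const 4).mul (hz.sm.gam hz.sm)).add
      (M.sm_scal.mul (hz.sm.pow 2))).continuous fun p hp => by
      simp [image_eq_zero_of_notMem_tsupport hp, Imm.gam_apply, Imm.D_eq_zero_of_notMem hp]
  rw [← sub_nonneg, ← integral_sub i2 i1] at h3
  refine h3.trans (le_of_eq (integral_congr_ae (Eventually.of_forall fun p => ?_)))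
  ring

end Crest.Agent.N228.Br

end
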