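import Crest.Agent.N228.O.Br1
import Crest.Agent.R208.G2

/-!
# Row 228, bridge (helper55), part 2: the intrinsic distance; `bridge : BridgeStmt`
-/

set_option autoImplicit false
set_option linter.unusedSectionVars false
open MeasureTheory Set Filter Topology Function
open scoped ContDiff InnerProductSpace RealInnerProductSpace
open Crest.GeometryTopology.Submanifold

noncomputable section

namespace Crest.Agent.N228.Br
open Crest.Agent.N222 Crest.Agent.R208

variable {n N : ℕ} {X : Type} [TopologicalSpace X] (M : Imm n (Fin N) X)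

/-- nearby points are joined by almost straight curves -/
theorem loc_join (p : X) {ε : ℝ} (hε : 0 < ε) : ∃ U ∈ 𝓝 p, ∀ q ∈ U, ∀ q' ∈ U,
    ∃ l, JoinedLen (range M.x) (M.x q) (M.x q') l ∧ l ≤ (1 + ε) * ‖M.x q - M.x q'‖ := by
  obtain ⟨e, L, he, hp, -, h2, h3⟩ := M.exists_proj_chart p
  have h0 : e p = 0 := by rw [h2, sub_self, map_zero]
  have ht : e.target ∈ 𝓝 (0 : E (Fin n)) := h0 ▸ e.open_target.mem_nhds (e.map_source hp)
  have hc : ContinuousAt (fderiv ℝ (M.x ∘ e.symm)) 0 :=
    (he.sm.continuousOn_fderiv_of_isOpen e.open_target (by simp)).continuousAt ht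
  have hL : ‖L.toContinuousLinearMap‖ ≤ 1 := L.norm_toContinuousLinearMap_le
  have h4 : ∀ᶠ z in 𝓝 (0 : E (Fin n)), ‖fderiv ℝ (M.x ∘ e.symm) z‖ < 1 + ε :=
    hc.norm.eventually (gt_mem_nhds (by simp only [h3]; linarith))
  obtain ⟨r, hr, H⟩ := Metric.mem_nhds_iff.1 (inter_mem ht h4)
  refine ⟨e.source ∩ e ⁻¹' Metric.ball 0 r, (e.isOpen_inter_preimage Metric.isOpen_ball).mem_nhds
    ⟨hp, by rw [mem_preimage, h0]; exact Metric.mem_ball_self hr⟩, fun q hq q' hq' => ?_⟩
  set c : ℝ → E (Fin n) := fun t => e q + stp t • (e q' - e q) with hcd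
  have hcm : ∀ t, c t ∈ Metric.ball (0 : E (Fin n)) r := fun t =>
    (convex_ball _ _).add_smul_sub_mem hq.2 hq'.2 (stp_mem t)
  have hcs : ContDiff ℝ ∞ c := contDiff_const.add (stp_contDiff.smul contDiff_const)
  have hγ : ContDiff ℝ ∞ fun t => (M.x ∘ e.symm) (c t) :=
    he.sm.comp_contDiff hcs fun t => (H (hcm t)).1
  have hd : ∀ t, HasDerivAt stp (deriv stp t) t := fun t =>
    (stp_contDiff.differentiable (by simp) t).hasDerivAt
  refine ⟨_, ⟨_, ⟨hγ, fun t => ⟨_, rfl⟩⟩, ?_, ?_, rfl⟩, ?_⟩
  · simp [hcd, stp_zero, e.left_inv hq.1]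
  · simp [hcd, stp_one (t := 1) (by norm_num), e.left_inv hq'.1]
  · have h5 : ‖e q' - e q‖ ≤ ‖M.x q - M.x q'‖ := by
      rw [h2, h2, ← map_sub, sub_sub_sub_cancel_right, norm_sub_rev (M.x q)]
      refine (ContinuousLinearMap.le_opNorm _ _).trans (mul_le_of_le_one_left (norm_nonneg _) ?_)
      rwa [LinearIsometryEquiv.norm_map]
    have h6 : ∀ t, ‖deriv (fun t => (M.x ∘ e.symm) (c t)) t‖ ≤
        (1 + ε) * ‖M.x q - M.x q'‖ * deriv stp t := fun t => by
      have h7 : HasDerivAt c (deriv stp t • (e q' - e q)) t :=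
        ((hd t).smul_const _).const_add _
      have h8 := (he.hasFDerivAt (H (hcm t)).1).comp_hasDerivAt t h7
      rw [show deriv (fun t => (M.x ∘ e.symm) (c t)) t = _ from h8.deriv]
      refine (ContinuousLinearMap.le_opNorm _ _).trans ?_
      have h9 : 0 ≤ deriv stp t := stp_mono.deriv_nonneg
      rw [norm_smul, Real.norm_of_nonneg h9, mul_assoc, mul_comm ‖M.x q - M.x q'‖]
      exact mul_le_mul (le_of_lt (H (hcm t)).2) (mul_le_mul_of_nonneg_left h5 h9)
        (by positivity) (by positivity)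
    have hcd' : Continuous (deriv stp) := stp_contDiff.continuous_deriv (by simp)
    refine (intervalIntegral.integral_mono_on zero_le_one
      ((continuous_norm_deriv hγ).intervalIntegrable _ _)
      ((continuous_const.mul hcd').intervalIntegrable _ _) fun t _ => h6 t).trans (le_of_eq ?_)
    simp only [Pi.mul_apply]
    rw [intervalIntegral.integral_const_mul, intervalIntegral.integral_eq_sub_of_hasDerivAt
      (fun t _ => hd t) (hcd'.intervalIntegrable _ _), stp_one (by norm_num),
      stp_zero (by norm_num), sub_zero, mul_one]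

theorem joined [PreconnectedSpace X] (p q : X) : JoinedS (range M.x) (M.x p) (M.x q) := by
  have h : IsClopen {q | JoinedS (range M.x) (M.x p) (M.x q)} := by
    refine ⟨⟨isOpen_iff_mem_nhds.2 fun q hq => ?_⟩, isOpen_iff_mem_nhds.2 fun q hq => ?_⟩
    · obtain ⟨U, hU, H⟩ := loc_join M q one_pos
      filter_upwards [hU] with q' hq' h
      obtain ⟨l, hl, -⟩ := H q' hq' q (mem_of_mem_nhds hU)
      exact hq (JoinedS.trans h hl.joined)
    · obtain ⟨U, hU, H⟩ := loc_join M q one_pos
      filter_upwards [hU] with q' hq'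
      obtain ⟨l, hl, -⟩ := H q (mem_of_mem_nhds hU) q' hq'
      exact JoinedS.trans hq hl.joined
  have h1 := h.eq_univ ⟨p, (JoinedLen.refl (mem_range_self p)).joined⟩
  exact (h1 ▸ mem_univ q : q ∈ {q | JoinedS (range M.x) (M.x p) (M.x q)})

theorem loc_dist (p : X) {ε : ℝ} (hε : 0 < ε) : ∃ U ∈ 𝓝 p, ∀ q ∈ U, ∀ q' ∈ U,
    intrinsicDist (range M.x) (M.x q) (M.x q') ≤ (1 + ε) * ‖M.x q - M.x q'‖ := by
  obtain ⟨U, hU, H⟩ := loc_join M p hε
  exact ⟨U, hU, fun q hq q' hq' => let ⟨_, h1, h2⟩ := H q hq q' hq'; (intrinsicDist_le h1).trans h2⟩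

/-- the intrinsic metric -/
@[reducible] def met [PreconnectedSpace X] (hM : IsEmbedding M.x) : MetricSpace X :=
  MetricSpace.ofDistTopology (fun p q => intrinsicDist (range M.x) (M.x p) (M.x q))
    (fun p => intrinsicDist_self ⟨p, rfl⟩) (fun _ _ => intrinsicDist_comm _ _ _)
    (fun p q r => intrinsicDist_triangle (joined M p q) (joined M q r))
    (fun s => by
      rw [isOpen_iff_mem_nhds]
      refine forall₂_congr fun p _ => ⟨fun h => ?_, fun ⟨ε, hε, h⟩ => ?_⟩
      · rw [hM.isInducing.nhds_eq_comap, (Metric.nhds_basis_ball.comap _).mem_iff] at h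
        obtain ⟨ε, hε, h⟩ := h
        exact ⟨ε, hε, fun q hq => h (mem_ball_iff_norm.2
          ((chord_le_intrinsicDist (joined M p q)).trans_lt hq))⟩
      · obtain ⟨U, hU, H⟩ := loc_dist M p one_pos
        have h1 : ∀ᶠ q in 𝓝 p, (1 + 1) * ‖M.x p - M.x q‖ < ε :=
          (continuous_const.mul (continuous_const.sub M.continuous_x).norm).continuousAt.eventually
            (gt_mem_nhds (by simpa using hε))
        filter_upwards [hU, h1] with q hq h2
        exact h q ((H p (mem_of_mem_nhds hU) q hq).trans_lt h2))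
    fun p q h => hM.injective (sub_eq_zero.1 (norm_le_zero_iff.1
      (h ▸ chord_le_intrinsicDist (joined M p q)))).symm

theorem dist_le_len {S : Set (Euc N)} {γ : ℝ → Euc N} (h : IsSmoothCurveIn S γ) {s t : ℝ}
    (hst : s ≤ t) : intrinsicDist S (γ s) (γ t) ≤ len γ s t := by
  have hφ : ContDiff ℝ ∞ fun r : ℝ => s + r * (t - s) := by fun_prop
  have h1 := len_comp h.1 hφ (fun a b hab => by
    have := mul_le_mul_of_nonneg_right hab (sub_nonneg.2 hst)
    linarith) 0 1
  refine intrinsicDist_le ⟨fun r => γ (s + r * (t - s)), ⟨h.1.comp hφ, fun _ => h.2 _⟩, by simp,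
    by simp, ?_⟩
  rw [curveLength_eq, h1]
  simp

theorem len_met [PreconnectedSpace X] (hM : IsEmbedding M.x) : @Len n (Fin N) _ X (met M hM) M := by
  let := met M hM
  refine ⟨fun p q => ?_, fun p ε hε => loc_dist M p hε, fun p q ε hε => ?_⟩
  · rw [norm_sub_rev]; exact chord_le_intrinsicDist (joined M p q)
  · obtain ⟨_, ⟨γ, h1, h2, h3, rfl⟩, h4⟩ := exists_joinedLen_lt (joined M p q)
      (lt_add_of_pos_right _ hε)
    choose c hc using h1.2
    refine ⟨c, len γ 0, hM.continuous_iff.2 ?_, ?_, hM.injective ((hc 0).trans h2),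
      hM.injective ((hc 1).trans h3), intervalIntegral.integral_same, h4.le, fun s t _ hst _ => ?_⟩
    · rw [show M.x ∘ c = γ from funext hc]; exact h1.1.continuous
    · exact intervalIntegral.continuous_primitive
        (fun _ _ => (continuous_norm_deriv h1.1).intervalIntegrable _ _) 0
    · change intrinsicDist _ _ _ ≤ _
      rw [hc, hc, ← len_add h1.1 0 s t, add_sub_cancel_left]
      exact dist_le_len h1 hst

theorem proper_met [PreconnectedSpace X] (hM : IsClosedEmbedding M.x) :
    @ProperSpace X (met M hM.isEmbedding).toPseudoMetricSpace := by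
  let := met M hM.isEmbedding
  refine ⟨fun p r => (hM.isCompact_preimage (isCompact_closedBall (M.x p) r)).of_isClosed_subset
    Metric.isClosed_closedBall fun q hq => ?_⟩
  exact mem_closedBall_iff_norm.2 (((len_met M hM.isEmbedding).chord q p).trans hq)

end Br

theorem bridge : BridgeStmt := by
  intro n N S hS hc hconn s hs hb
  obtain ⟨M, hx, hF⟩ := Br.exists_form hS hc hs hb
  have := isConnected_iff_connectedSpace.1 hconn
  have hM : IsClosedEmbedding M.x := hx ▸ hc.isClosedEmbedding_subtypeVal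
  have hr : range M.x = S := by rw [hx]; exact Subtype.range_coe
  exact ⟨S, Br.met M hM.isEmbedding, Br.proper_met M hM, inferInstance, inferInstance, this, M,
    hM.isEmbedding, hr, Br.len_met M hM.isEmbedding, hF, fun p q =>
      congrArg (intrinsicDist · (M.x p) (M.x q)) hr⟩

end Crest.Agent.N228

end
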