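import Crest.Agent.N228.O.Defs

/-!
# Row 228, outer layer (helper62): the cover given by the skeleton of a cube complex

`cube01`, `cube` : continuous signs with at most `k` undecided ones at every point give a cover of
multiplicity `≤ k + 1` whose mesh only depends on the distance between a point of a positive face
and the points outside the negative face.
-/

set_option autoImplicit false
open Set Filter Topology Function

namespace Crest.Agent.N228

/-- pigeonhole: `k` numbers miss one of `k + 1` open intervals -/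
theorem Cube.exists_gap (k : ℕ) (S : Finset ℝ) (hS : S.card ≤ k) {δ : ℝ} (hδ : 0 < δ) :
    ∃ j : ℕ, j ≤ k ∧ ∀ x ∈ S, x ≤ j * δ ∨ (j + 1) * δ ≤ x := by
  classical
  by_contra h
  push Not at h
  choose! f hf h1 h2 using h
  have hinj : Set.InjOn f (Finset.range (k + 1) : Set ℕ) := by
    intro i hi j hj hij
    have hi' : i ≤ k := Nat.lt_succ_iff.1 (by simpa using hi)
    have hj' : j ≤ k := Nat.lt_succ_iff.1 (by simpa using hj)
    have a1 := h1 i hi'
    have a2 := h2 i hi'
    have a3 := h1 j hj'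
    have a4 := h2 j hj'
    rw [hij] at a1 a2
    have b1 : (i : ℝ) < j + 1 := lt_of_mul_lt_mul_right (a1.trans a4) hδ.le
    have b2 : (j : ℝ) < i + 1 := lt_of_mul_lt_mul_right (a3.trans a2) hδ.le
    have c1 : i < j + 1 := by exact_mod_cast b1
    have c2 : j < i + 1 := by exact_mod_cast b2
    omega
  have := Finset.card_le_card_of_injOn f (s := Finset.range (k + 1)) (t := S)
    (fun i hi => hf i (Nat.lt_succ_iff.1 (by simpa using hi))) hinj
  rw [Finset.card_range] at this
  omega

/-- the cover, for functions with values in `[0, 1]` -/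
theorem cube01 (X : Type) [MetricSpace X] (k : ℕ) (C : ℝ) (κ : Type) (t : κ → X → ℝ)
    (hc : ∀ c, Continuous (t c)) (h0 : ∀ c p, 0 ≤ t c p) (h1 : ∀ c p, t c p ≤ 1)
    (hl : LocallyFinite fun c => {p | 0 < t c p})
    (hp : ∀ p, ∃ c, t c p = 1 ∧ ∀ q, 0 < t c q → dist p q ≤ C)
    (hk : ∀ p (A : Finset κ), (∀ c ∈ A, 0 < t c p ∧ t c p < 1) → A.card ≤ k) : Cov X k C := by
  classical
  set δ : ℝ := 1 / ((k : ℝ) + 1) with hδ
  have hk1 : (0 : ℝ) < (k : ℝ) + 1 := by positivity
  have δ0 : 0 < δ := by positivity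
  have δ1 : ((k : ℝ) + 1) * δ = 1 := by rw [hδ]; field_simp
  have hfin : ∀ p, {c | 0 < t c p}.Finite := fun p => hl.point_finite p
  -- the undecided values
  set Mid : X → Finset κ := fun p => (hfin p).toFinset.filter fun c => t c p < 1 with hMid
  have mMid : ∀ p c, c ∈ Mid p ↔ 0 < t c p ∧ t c p < 1 := fun p c => by simp [hMid]
  have cMid : ∀ p, (Mid p).card ≤ k := fun p => hk p _ fun c h => (mMid p c).1 h
  refine ⟨{A : Finset κ // A.Nonempty}, fun A => {p | ∀ c ∈ A.1, δ ≤ t c p ∧
    ∀ c', c' ∉ A.1 → t c' p + δ ≤ t c p}, fun A => ?_, fun p => ?_, fun p => ?_, fun p s hs => ?_,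
    fun A p hp' q hq => ?_⟩
  · simp only [setOf_forall, setOf_and]
    refine isClosed_iInter fun c => isClosed_iInter fun _ => IsClosed.inter
      (isClosed_le continuous_const (hc c)) (isClosed_iInter fun c' => isClosed_iInter fun _ =>
        isClosed_le ((hc c').add continuous_const) (hc c))
  · obtain ⟨N, hN, hf⟩ := hl p
    refine ⟨N, hN, ?_⟩
    refine Finite.of_finite_image (f := fun A => (A.1 : Finset κ)) ?_ Subtype.val_injective.injOn
    refine (hf.toFinset.powerset.finite_toSet).subset ?_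
    rintro _ ⟨A, ⟨q, hq, hqN⟩, rfl⟩
    simp only [Finset.coe_powerset, mem_preimage, mem_powerset_iff, Finite.coe_toFinset]
    exact fun c hc' => ⟨q, δ0.trans_le (hq c hc').1, hqN⟩
  · obtain ⟨j, hj, hg⟩ := Cube.exists_gap k ((Mid p).image fun c => t c p)
      (Finset.card_image_le.trans (cMid p)) δ0
    have hj' : (j : ℝ) ≤ k := by exact_mod_cast hj
    have j0 : (0 : ℝ) ≤ j := Nat.cast_nonneg j
    have e1 : ((j : ℝ) + 1) * δ ≤ 1 := by nlinarith
    have e0 : δ ≤ ((j : ℝ) + 1) * δ := by nlinarith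
    obtain ⟨c0, hc0, -⟩ := hp p
    have mA : ∀ c, c ∈ (hfin p).toFinset.filter (fun c => ((j : ℝ) + 1) * δ ≤ t c p) ↔
        ((j : ℝ) + 1) * δ ≤ t c p := fun c => by
      simp only [Finset.mem_filter, Finite.mem_toFinset, mem_setOf_eq, and_iff_right_iff_imp]
      exact fun h => δ0.trans_le (e0.trans h)
    refine ⟨⟨_, c0, (mA c0).2 (hc0 ▸ e1)⟩, fun c hc' => ?_⟩
    have a1 := (mA c).1 hc'
    refine ⟨e0.trans a1, fun c' hc'' => ?_⟩
    have a2 : t c' p < ((j : ℝ) + 1) * δ := not_le.1 fun h => hc'' ((mA c').2 h)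
    have a3 : t c' p ≤ j * δ := by
      rcases (h0 c' p).eq_or_lt with h | h
      · rw [← h]; positivity
      · rcases hg _ (Finset.mem_image_of_mem _ ((mMid p c').2 ⟨h, a2.trans_le e1⟩)) with h' | h'
        · exact h'
        · exact absurd h' (not_le.2 a2)
    linarith
  · have hex : ∀ A : {A : Finset κ // A.Nonempty}, ∃ c ∈ A.1, ∀ c' ∈ A.1, t c p ≤ t c' p :=
      fun A => A.1.exists_min_image (fun c => t c p) A.2
    choose g g1 g2 using hex
    have key : ∀ A ∈ s, ∀ c, c ∈ A.1 ↔ t (g A) p ≤ t c p := fun A hA c =>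
      ⟨g2 A c, fun h => by
        by_contra hc'
        have := (hs A hA _ (g1 A)).2 c hc'
        linarith⟩
    have := Finset.card_le_card_of_injOn (fun A => t (g A) p) (s := s)
      (t := insert 1 ((Mid p).image fun c => t c p)) (fun A hA => ?_) (fun A hA B hB hAB => ?_)
    · exact this.trans ((Finset.card_insert_le _ _).trans
        (Nat.succ_le_succ (Finset.card_image_le.trans (cMid p))))
    · rcases (h1 (g A) p).eq_or_lt with h | h
      · simp [h]
      · exact Finset.mem_coe.2 (Finset.mem_insert_of_mem (Finset.mem_image_of_mem _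
          ((mMid p _).2 ⟨δ0.trans_le (hs A hA _ (g1 A)).1, h⟩)))
    · refine Subtype.ext (Finset.ext fun c => ?_)
      rw [key A hA, key B hB, show t (g A) p = t (g B) p from hAB]
  · obtain ⟨c0, hc0, hd⟩ := hp p
    have hA : c0 ∈ A.1 := by
      by_contra h
      obtain ⟨c, hc'⟩ := A.2
      have := (hp' c hc').2 c0 h
      have := h1 c p
      linarith
    exact hd q (δ0.trans_le (hq c0 hA).1)

/-- the cover, for signs: `s c ≥ a` is the positive face, `s c ≤ -a` the negative face -/
theorem cube (X : Type) [MetricSpace X] (k : ℕ) (C a : ℝ) (ha : 0 < a) (κ : Type)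
    (s : κ → X → ℝ) (hc : ∀ c, Continuous (s c)) (hl : LocallyFinite fun c => {p | -a < s c p})
    (hp : ∀ p, ∃ c, a ≤ s c p ∧ ∀ q, -a < s c q → dist p q ≤ C)
    (hk : ∀ p (A : Finset κ), (∀ c ∈ A, |s c p| < a) → A.card ≤ k) : Cov X k C := by
  have e0 : ∀ x : ℝ, 0 < max 0 (min 1 ((x + a) / (2 * a))) ↔ -a < x := fun x => by
    rw [lt_max_iff, lt_min_iff, div_pos_iff_of_pos_right (by positivity)]
    constructor
    · rintro (h | h)
      · exact absurd h (lt_irrefl _)
      · linarith [h.2]
    · exact fun h => Or.inr ⟨one_pos, by linarith⟩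
  have e1 : ∀ x : ℝ, max 0 (min 1 ((x + a) / (2 * a))) < 1 → x < a := fun x h => by
    rw [max_lt_iff, min_lt_iff, div_lt_one (by positivity)] at h
    rcases h.2 with h | h
    · exact absurd h (lt_irrefl _)
    · linarith
  refine cube01 X k C κ (fun c p => max 0 (min 1 ((s c p + a) / (2 * a)))) (fun c => ?_)
    (fun _ _ => le_max_left _ _) (fun _ _ => max_le zero_le_one (min_le_left _ _)) ?_
    (fun p => ?_) fun p A hA => hk p A fun c hc' => ?_
  · have := hc c
    fun_prop
  · simpa only [e0] using hl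
  · obtain ⟨c, h1, h2⟩ := hp p
    refine ⟨c, ?_, fun q hq => h2 q ((e0 _).1 hq)⟩
    have : 1 ≤ (s c p + a) / (2 * a) := by rw [le_div_iff₀ (by positivity)]; linarith
    simp only [min_eq_left this, max_eq_right (zero_le_one (α := ℝ))]
  · exact abs_lt.2 ⟨(e0 _).1 (hA c hc').1, e1 _ (hA c hc').2⟩

end Crest.Agent.N228
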