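import Crest.Agent.N228.O.Br0
import Crest.Agent.N222.F.Basic

/-!
# Row 228, the bridge: test functions extend, the tangential gradient is the gradient (helper95)
-/

set_option autoImplicit false
open MeasureTheory Set Filter Topology Function
open scoped ContDiff InnerProductSpace RealInnerProductSpace Manifold
open Crest.GeometryTopology.Submanifold

namespace Crest.Agent.N228
open Crest.Agent.N222

namespace Ext
variable {d : ℕ} {ι : Type} [Fintype ι] {X : Type} [TopologicalSpace X] (M : Imm d ι X)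

/-- a local retraction of the ambient space onto the chart -/
theorem retr (p : X) : ∃ ρ : E ι → E (Fin d), (∀ᶠ y in 𝓝 (M.x p), ContDiffAt ℝ ∞ ρ y) ∧
    ∀ᶠ q in 𝓝 p, ρ (M.x q) = M.ch p q := by
  set A := ContinuousLinearMap.adjoint (Lam (M.J p)) with hA
  set g : E (Fin d) → E (Fin d) := A ∘ M.x ∘ (M.ch p).symm with hg
  have ho := (M.ch p).open_target
  have h0 := (M.ch p).map_source (M.mem p)
  have hgs : ContDiffOn ℝ ∞ g (M.ch p).target := A.contDiff.comp_contDiffOn (M.isChart p).sm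
  have hg0 := hgs.contDiffAt (ho.mem_nhds h0)
  have hd : HasFDerivAt g (ContinuousLinearEquiv.refl ℝ (E (Fin d)) : E (Fin d) →L[ℝ] E (Fin d))
      (M.ch p p) := by
    have h1 := A.hasFDerivAt.comp (M.ch p p)
      (((M.isChart p).sm.contDiffAt (ho.mem_nhds h0)).differentiableAt (by simp)).hasFDerivAt
    exact h1.congr_fderiv (ContinuousLinearMap.ext fun v => adj_Lam_apply (M.J_inj p) v)
  have hn : (∞ : WithTop ℕ∞) ≠ 0 := by simp
  set Φ := hg0.toOpenPartialHomeomorph g hd hn
  have hs : M.ch p p ∈ Φ.source := hg0.mem_toOpenPartialHomeomorph_source hd hn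
  have hx : A (M.x p) = Φ (M.ch p p) := by
    change _ = A (M.x ((M.ch p).symm (M.ch p p)))
    rw [(M.ch p).left_inv (M.mem p)]
  refine ⟨Φ.symm ∘ A, ?_, ?_⟩
  · have hu : ∀ᶠ w in 𝓝 (M.ch p p), IsUnit (fderiv ℝ g w) :=
      (hg0.continuousAt_fderiv (by simp)).eventually (Units.isOpen.mem_nhds (by
        rw [mem_setOf_eq, hd.fderiv]; exact isUnit_one))
    have ht := Φ.tendsto_symm hs
    have h1 : ∀ᶠ a in 𝓝 (Φ (M.ch p p)), ContDiffAt ℝ ∞ Φ.symm a := by
      filter_upwards [ht.eventually hu, ht.eventually (ho.mem_nhds h0),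
        Φ.open_target.mem_nhds (Φ.map_source hs)] with a ⟨u, hu⟩ h2 h3
      have h4 := hgs.contDiffAt (ho.mem_nhds h2)
      refine Φ.contDiffAt_symm (f₀' := ContinuousLinearEquiv.ofUnit u) h3 ?_ h4
      have h5 : (ContinuousLinearEquiv.ofUnit u : E (Fin d) →L[ℝ] E (Fin d)) =
          fderiv ℝ g (Φ.symm a) := by rw [← hu]; rfl
      rw [h5]
      exact (h4.differentiableAt hn).hasFDerivAt
    rw [← hx] at h1
    filter_upwards [A.continuous.continuousAt.eventually h1] with y hy
    exact hy.comp y A.contDiff.contDiffAt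
  · filter_upwards [((M.ch p).continuousAt (M.mem p)).eventually (Φ.eventually_left_inverse hs),
      (M.ch p).eventually_left_inverse (M.mem p)] with q h1 h2
    rw [← h1]
    change Φ.symm (A (M.x q)) = Φ.symm (A (M.x ((M.ch p).symm (M.ch p q))))
    rw [h2]

theorem tan (hM : IsEmbedding M.x) (p : X) :
    tangentConeAt ℝ (range M.x) (M.x p) = range (M.J p) := by
  have h0 := (M.ch p).map_source (M.mem p)
  have hl := (M.ch p).left_inv (M.mem p)
  have hf : HasFDerivAt (M.x ∘ (M.ch p).symm) (M.J p) (M.ch p p) :=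
    (M.sm_x.diffAt p).hasFDerivAt
  refine Subset.antisymm (fun v hv => ?_) ?_
  · obtain ⟨ρ, h1, h2⟩ := retr M p
    have h3 := (h1.self_of_nhds.differentiableAt (by simp)).hasFDerivAt
    have h4 := HasFDerivAt.comp (M.x p) (h2.self_of_nhds ▸ hf) h3
    have h5 : HasFDerivWithinAt ((M.x ∘ (M.ch p).symm) ∘ ρ) (ContinuousLinearMap.id ℝ (E ι))
        (range M.x) (M.x p) := by
      refine (hasFDerivWithinAt_id _ _).congr_of_eventuallyEq ?_
        (by simp [h2.self_of_nhds, hl])
      rw [← hM.map_nhds_eq, EventuallyEq, eventually_map]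
      filter_upwards [h2, (M.ch p).eventually_left_inverse (M.mem p)] with q a b
      simp [a, b]
    exact ⟨_, h4.hasFDerivWithinAt.unique_on h5 hv⟩
  · rintro _ ⟨v, rfl⟩
    have h1 := (hf.hasFDerivWithinAt (s := univ)).mapsTo_tangent_cone
      (show v ∈ _ by rw [tangentConeAt_univ]; trivial)
    rw [comp_apply, hl] at h1
    exact tangentConeAt_mono (by rintro _ ⟨w, -, rfl⟩; exact ⟨_, rfl⟩) h1

theorem proj (hM : IsEmbedding M.x) (p : X) (v : E ι) :
    (Submodule.span ℝ (tangentConeAt ℝ (range M.x) (M.x p))).starProjection v = M.PL p v := by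
  refine Submodule.eq_starProjection_of_mem_of_inner_eq_zero
    (Submodule.subset_span (by rw [tan M hM]; exact ⟨_, rfl⟩)) fun w hw => ?_
  have h : Submodule.span ℝ (tangentConeAt ℝ (range M.x) (M.x p)) ≤ (M.J p).range :=
    Submodule.span_le.2 (tan M hM p).le
  obtain ⟨u, rfl⟩ := h hw
  rw [real_inner_comm]
  exact inner_sub_proj (M.J_inj p) u v

theorem glob (hM : IsClosedEmbedding M.x) {z : X → ℝ} (hz : M.Sm z) :
    ∃ g : E ι → ℝ, ContDiff ℝ ∞ g ∧ ∀ p, g (M.x p) = z p := by
  obtain ⟨g, hg⟩ := exists_contMDiffMap_forall_mem_convex_of_local (n := ⊤) 𝓘(ℝ, E ι)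
    (t := fun y : E ι => {c : ℝ | ∀ q, M.x q = y → c = z q})
    (fun y a ha b hb s t _ _ h q hq => by
      rw [ha q hq, hb q hq, smul_eq_mul, smul_eq_mul, ← add_mul, h, one_mul]) fun y => by
      by_cases hy : y ∈ range M.x
      · obtain ⟨p, rfl⟩ := hy
        obtain ⟨ρ, h1, h2⟩ := retr M p
        have h3 : ∀ᶠ y in 𝓝 (M.x p), ρ y ∈ (M.ch p).target :=
          h1.self_of_nhds.continuousAt.eventually ((M.ch p).open_target.mem_nhds
            (h2.self_of_nhds ▸ (M.ch p).map_source (M.mem p)))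
        have h4 : ∀ᶠ y in 𝓝 (M.x p), ∀ q, M.x q = y → z ((M.ch p).symm (ρ y)) = z q := by
          have h5 : ∀ᶠ q in comap M.x (𝓝 (M.x p)), z ((M.ch p).symm (ρ (M.x q))) = z q := by
            rw [← hM.isInducing.nhds_eq_comap]
            filter_upwards [h2, (M.ch p).eventually_left_inverse (M.mem p)] with q a b
            rw [a, b]
          exact (eventually_comap.1 h5).mono fun y h q hq => hq ▸ h q hq
        refine ⟨_, (h1.and h3).and h4, (z ∘ (M.ch p).symm) ∘ ρ, fun y hy => ?_, fun y hy => hy.2⟩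
        exact (((hz p).contDiffAt ((M.ch p).open_target.mem_nhds hy.1.2)).comp y
          hy.1.1).contMDiffAt.contMDiffWithinAt
      · exact ⟨_, hM.isClosed_range.isOpen_compl.mem_nhds hy, 0, contMDiffOn_const,
          fun y hy q hq => absurd ⟨q, hq⟩ hy⟩
  exact ⟨g, g.contMDiff.contDiff, fun p => hg _ p rfl⟩

end Ext

open Ext in
theorem ext : ExtStmt := by
  intro n N X _ _ _ M hM z hz
  obtain ⟨g, hg, hgz⟩ := glob M hM hz.sm
  obtain ⟨R, hR0, hR⟩ := (hz.cs.isCompact.image M.continuous_x).isBounded.subset_closedBall_lt 0 0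
  let b : ContDiffBump (0 : E (Fin N)) := ⟨R, R + 1, hR0, by linarith⟩
  have hφ : ContDiff ℝ ∞ fun y => b y * g y := b.contDiff.mul hg
  have hx : ∀ p, b (M.x p) * g (M.x p) = z p := fun p => by
    rw [hgz]
    by_cases h : z p = 0
    · rw [h, mul_zero]
    · rw [b.one_of_mem_closedBall (hR ⟨p, subset_tsupport _ h, rfl⟩), one_mul]
  refine ⟨fun y => b y * g y, hφ, b.hasCompactSupport.mul_right, fun p => ⟨hx p, ?_⟩⟩
  rw [tangGradSq, proj M hM.isEmbedding, Imm.gam_self_eq]
  congr 2
  refine ext_inner_right ℝ fun w => ?_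
  have h := Imm.td_comp (M.sm_x.diffAt p) (hφ.differentiable (by simp) (M.x p))
  simp only [hx] at h
  rw [M.PL_symm, ← Imm.td_eq_inner, h, gradient, InnerProductSpace.toDual_symm_apply]
  rfl

end Crest.Agent.N228
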