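import Crest.Agent.N228.O.Defs

/-!
# Row 228: the final assembly
-/

set_option autoImplicit false
open Set Filter Topology Function
open Crest.GeometryTopology.Submanifold

namespace Crest.Agent.N228
open Crest.Agent.N222

theorem of_width (hB : BridgeStmt) (hN : NerveStmt) {n : ℕ} {C : ℝ} (h : Width n C) (N : ℕ)
    (S : Set (EuclideanSpace ℝ (Fin N))) (h1 : IsSubmanifold n N S) (h2 : IsClosed S)
    (h3 : IsConnected S) (s : EuclideanSpace ℝ (Fin N) → ℝ) (h4 : scalarField n N S s)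
    (h5 : SpectralScalarBound S n s 1) :
    ∃ (ι : Type) (K : Set (Finset ι)) (F : EuclideanSpace ℝ (Fin N) → (ι → ℝ)),
      IsSimplicialComplexOfDim K (n - 2) ∧ ContinuousOn F S ∧
        Set.MapsTo F S (polyhedron K) ∧ fibreDiamLE S F (C + 1) := by
  obtain ⟨X, _, _, _, _, _, M, e1, rfl, e3, e4, e5⟩ := hB n N S h1 h2 h3 s h4 h5
  obtain ⟨κ, K, F, f1, f2, f3, f4⟩ :=
    hN X (n - 2) C 1 one_pos (h _ X M e1.injective e3 e4)
  have h6 : ∀ p, F (invFun M.x (M.x p)) = F p := fun p => by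
    rw [leftInverse_invFun e1.injective p]
  refine ⟨κ, K, fun y => F (invFun M.x y), f1, ?_, ?_, ?_⟩
  · rw [continuousOn_iff_continuous_domRestrict]
    have : (range M.x).domRestrict (fun y => F (invFun M.x y)) = F ∘ e1.toHomeomorph.symm := by
      funext y
      obtain ⟨p, rfl⟩ := e1.toHomeomorph.surjective y
      rw [comp_apply, Homeomorph.symm_apply_apply]
      exact h6 p
    rw [this]
    exact f2.comp e1.toHomeomorph.symm.continuous
  · rintro _ ⟨p, rfl⟩
    exact f3 _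
  · rintro _ ⟨p, rfl⟩ _ ⟨q, rfl⟩ hpq
    rw [← e5]
    exact f4 p q ((h6 p).symm.trans (hpq.trans (h6 q)))

theorem s0352_of (hB : BridgeStmt) (hN : NerveStmt) (h3 : N3Stmt) (hG : GenStmt) (n : ℕ)
    (hn : 3 ≤ n) :
    ∃ C : ℝ, (n = 3 → C ≤ 500) ∧ ∀ (N : ℕ) (S : Set (EuclideanSpace ℝ (Fin N))),
      IsSubmanifold n N S → IsClosed S → IsConnected S →
      ∀ s : EuclideanSpace ℝ (Fin N) → ℝ, scalarField n N S s → SpectralScalarBound S n s 1 →
      ∃ (ι : Type) (K : Set (Finset ι)) (F : EuclideanSpace ℝ (Fin N) → (ι → ℝ)),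
        IsSimplicialComplexOfDim K (n - 2) ∧ ContinuousOn F S ∧
          Set.MapsTo F S (polyhedron K) ∧ fibreDiamLE S F C := by
  by_cases h : n = 3
  · subst h
    exact ⟨499 + 1, fun _ => by norm_num, of_width hB hN h3⟩
  · obtain ⟨C, hC⟩ := hG n hn
    exact ⟨C + 1, fun h' => absurd h' h, of_width hB hN hC⟩

end Crest.Agent.N228
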