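import Crest.Agent.N228.O.Defs
import Crest.Agent.N222.F.Res

/-!
# Row 228 (helper55): the length distance of an arbitrary connected Hausdorff `Imm`

`Ln.met M : MetricSpace X` (the topology is the given one, definitionally), `Ln.len_met : Len M`.
-/

set_option autoImplicit false
set_option linter.unusedSectionVars false
open Set Filter Topology Function

noncomputable section

namespace Crest.Agent.N228.Ln
open Crest.Agent.N222

variable {n : ℕ} {ι : Type} [Fintype ι] {X : Type} [TopologicalSpace X] {M : Imm n ι X}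
  {p q r : X} {T T' : ℝ}

/-- joined by a curve of speed at most one in time `T` -/
def Jn (M : Imm n ι X) (p q : X) (T : ℝ) : Prop :=
  0 ≤ T ∧ ∃ γ : ℝ → X, Continuous γ ∧ γ 0 = p ∧ γ T = q ∧
    ∀ s t, 0 ≤ s → s ≤ t → t ≤ T → ‖M.x (γ s) - M.x (γ t)‖ ≤ t - s

theorem Jn.refl (p : X) : Jn M p p 0 :=
  ⟨le_rfl, fun _ => p, continuous_const, rfl, rfl, fun s t _ h _ => by simpa using h⟩

theorem Jn.symm (h : Jn M p q T) : Jn M q p T := by
  obtain ⟨h0, γ, hc, h1, h2, h3⟩ := h
  refine ⟨h0, fun t => γ (T - t), hc.comp (by fun_prop), by simpa, by simpa,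
    fun s t hs hst ht => ?_⟩
  rw [norm_sub_rev]
  exact (h3 _ _ (by linarith) (by linarith) (by linarith)).trans (by linarith)

theorem Jn.trans (h : Jn M p q T) (h' : Jn M q r T') : Jn M p r (T + T') := by
  obtain ⟨h0, γ, hc, h1, h2, h3⟩ := h
  obtain ⟨k0, δ, kc, k1, k2, k3⟩ := h'
  refine ⟨by linarith, fun t => if t ≤ T then γ t else δ (t - T),
    hc.if_le (kc.comp (by fun_prop)) continuous_id continuous_const fun t ht => by
      rw [ht, sub_self, h2, k1], by simp [h0, h1], ?_, fun s t hs hst ht => ?_⟩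
  · by_cases h : T + T' ≤ T
    · obtain rfl : T' = 0 := by linarith
      simp [h2, ← k1, k2]
    · simp [h, k2]
  · by_cases a : t ≤ T
    · simp only [a, hst.trans a, if_true]
      exact h3 s t hs hst a
    · by_cases b : s ≤ T
      · simp only [a, b, if_true, if_false]
        have e1 := h3 s T hs b le_rfl
        have e2 := k3 0 (t - T) le_rfl (by linarith) (by linarith)
        rw [k1, ← h2] at e2
        linarith [norm_sub_le_norm_sub_add_norm_sub (M.x (γ s)) (M.x (γ T)) (M.x (δ (t - T)))]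
      · simp only [a, b, if_false]
        exact (k3 _ _ (by linarith) (by linarith) (by linarith)).trans (by linarith)

theorem Jn.chord (h : Jn M p q T) : ‖M.x p - M.x q‖ ≤ T := by
  obtain ⟨h0, γ, -, rfl, rfl, h3⟩ := h
  simpa using h3 0 T le_rfl h0 le_rfl

theorem norm_chart_le {e : X → E (Fin n)} {L : E (Fin n) →ₗᵢ[ℝ] E ι}
    (h2 : ∀ q, e q = ContinuousLinearMap.adjoint L.toContinuousLinearMap (M.x q - M.x p))
    (q q' : X) : ‖e q - e q'‖ ≤ ‖M.x q - M.x q'‖ := by
  rw [h2, h2, ← map_sub, sub_sub_sub_cancel_right]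
  refine (ContinuousLinearMap.le_opNorm _ _).trans (mul_le_of_le_one_left (norm_nonneg _) ?_)
  rw [LinearIsometryEquiv.norm_map]
  exact L.norm_toContinuousLinearMap_le

/-- nearby points are joined by almost straight curves -/
theorem loc_jn (M : Imm n ι X) (p : X) {ε : ℝ} (hε : 0 < ε) :
    ∃ U ∈ 𝓝 p, ∀ q ∈ U, ∀ q' ∈ U, Jn M q q' ((1 + ε) * ‖M.x q - M.x q'‖) := by
  obtain ⟨e, L, he, hp, -, h2, h3⟩ := M.exists_proj_chart p
  have h0 : e p = 0 := by rw [h2, sub_self, map_zero]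
  have ht : e.target ∈ 𝓝 (0 : E (Fin n)) := h0 ▸ e.open_target.mem_nhds (e.map_source hp)
  have hc : ContinuousAt (fderiv ℝ (M.x ∘ e.symm)) 0 :=
    (he.sm.continuousOn_fderiv_of_isOpen e.open_target (by simp)).continuousAt ht
  have hL : ‖L.toContinuousLinearMap‖ ≤ 1 := L.norm_toContinuousLinearMap_le
  have h4 : ∀ᶠ z in 𝓝 (0 : E (Fin n)), ‖fderiv ℝ (M.x ∘ e.symm) z‖ < 1 + ε :=
    hc.norm.eventually (gt_mem_nhds (by simp only [h3]; linarith))
  obtain ⟨ρ, hρ, H⟩ := Metric.mem_nhds_iff.1 (inter_mem ht h4)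
  refine ⟨e.source ∩ e ⁻¹' Metric.ball 0 ρ, (e.isOpen_inter_preimage Metric.isOpen_ball).mem_nhds
    ⟨hp, by rw [mem_preimage, h0]; exact Metric.mem_ball_self hρ⟩, fun q hq q' hq' => ?_⟩
  have h5 := norm_chart_le h2 q' q
  rw [norm_sub_rev (M.x q')] at h5
  by_cases hx : M.x q - M.x q' = 0
  · rw [hx, norm_zero, norm_le_zero_iff, sub_eq_zero] at h5
    rw [hx, norm_zero, mul_zero, e.injOn hq'.1 hq.1 h5]
    exact Jn.refl q
  set T := (1 + ε) * ‖M.x q - M.x q'‖ with hT
  have hT0 : 0 < T := mul_pos (by linarith) (norm_pos_iff.2 hx)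
  set c : ℝ → E (Fin n) := fun t => e q + (projIcc 0 1 zero_le_one (t / T) : ℝ) • (e q' - e q)
    with hcd
  have hcm : ∀ t, c t ∈ Metric.ball (0 : E (Fin n)) ρ := fun t =>
    (convex_ball _ _).add_smul_sub_mem hq.2 hq'.2 (Subtype.prop _)
  have hci : ∀ t, 0 ≤ t → t ≤ T → c t = e q + (t / T) • (e q' - e q) := fun t h1 h2 => by
    simp only [hcd]
    rw [projIcc_of_mem _ ⟨div_nonneg h1 hT0.le, (div_le_one hT0).2 h2⟩]
  refine ⟨hT0.le, fun t => e.symm (c t), e.continuousOn_symm.comp_continuous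
    (continuous_const.add ((continuous_subtype_val.comp (continuous_projIcc.comp
      (continuous_id.div_const T))).smul continuous_const)) fun t => (H (hcm t)).1, ?_, ?_,
    fun s t hs hst htT => ?_⟩
  · simp [hci 0 le_rfl hT0.le, e.left_inv hq.1]
  · simp [hci T hT0.le le_rfl, hT0.ne', e.left_inv hq'.1]
  · refine ((convex_ball _ _).norm_image_sub_le_of_norm_fderiv_le (f := M.x ∘ e.symm)
      (fun z hz => (he.hasFDerivAt (H hz).1).differentiableAt) (fun z hz => le_of_lt (H hz).2)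
      (hcm t) (hcm s)).trans ?_
    rw [hci s hs (hst.trans htT), hci t (hs.trans hst) htT, add_sub_add_left_eq_sub, ← sub_smul,
      norm_smul, ← sub_div, Real.norm_eq_abs, abs_div, abs_sub_comm, abs_of_nonneg (sub_nonneg.2 hst),
      abs_of_pos hT0]
    calc (1 + ε) * ((t - s) / T * ‖e q' - e q‖) ≤ (1 + ε) * ((t - s) / T * ‖M.x q - M.x q'‖) := by
          have := sub_nonneg.2 hst
          gcongr
      _ = (t - s) / T * T := by rw [hT]; ring
      _ = t - s := div_mul_cancel₀ _ hT0.ne'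

theorem exists_jn [PreconnectedSpace X] (M : Imm n ι X) (p q : X) : ∃ T, Jn M p q T := by
  have h : IsClopen {q | ∃ T, Jn M p q T} := by
    refine ⟨⟨isOpen_iff_mem_nhds.2 fun q hq => ?_⟩, isOpen_iff_mem_nhds.2 fun q hq => ?_⟩
    · obtain ⟨U, hU, H⟩ := loc_jn M q one_pos
      filter_upwards [hU] with q' hq' ⟨T, h⟩
      exact hq ⟨_, h.trans (H q' hq' q (mem_of_mem_nhds hU))⟩
    · obtain ⟨U, hU, H⟩ := loc_jn M q one_pos
      obtain ⟨T, h⟩ := hq
      filter_upwards [hU] with q' hq'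
      exact ⟨_, h.trans (H q (mem_of_mem_nhds hU) q' hq')⟩
  have h1 := h.eq_univ ⟨p, 0, Jn.refl p⟩
  exact (h1 ▸ mem_univ q : q ∈ {q | ∃ T, Jn M p q T})

/-- short curves stay in a given neighbourhood -/
theorem stay [T2Space X] (M : Imm n ι X) (p : X) {U : Set X} (hU : U ∈ 𝓝 p) :
    ∃ ρ > 0, ∀ q T, Jn M p q T → T < ρ → q ∈ U := by
  obtain ⟨e, L, he, hp, -, h2, -⟩ := M.exists_proj_chart p
  have h0 : e p = 0 := by rw [h2, sub_self, map_zero]
  have ht : e.target ∩ e.symm ⁻¹' U ∈ 𝓝 (0 : E (Fin n)) := by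
    rw [← h0]
    exact inter_mem (e.open_target.mem_nhds (e.map_source hp))
      ((e.continuousAt_symm (e.map_source hp)).preimage_mem_nhds (by rwa [e.left_inv hp]))
  obtain ⟨ρ, hρ, H⟩ := Metric.nhds_basis_closedBall.mem_iff.1 ht
  refine ⟨ρ, hρ, ?_⟩
  rintro _ T ⟨hT, γ, hc, h1, rfl, h3⟩ hTρ
  have hK : IsClosed (e.symm '' Metric.closedBall 0 ρ) :=
    ((isCompact_closedBall _ _).image_of_continuousOn
      (e.continuousOn_symm.mono fun _ hz => (H hz).1)).isClosed
  have key : Icc 0 T ⊆ γ ⁻¹' (e.symm '' Metric.closedBall 0 ρ) := by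
    refine IsClosed.Icc_subset_of_forall_mem_nhdsWithin
      ((hK.preimage hc).inter isClosed_Icc) ⟨0, Metric.mem_closedBall_self hρ.le, by
        rw [h1, ← h0, e.left_inv hp]⟩ ?_
    rintro t ⟨⟨z, hz, hzt⟩, ht0, htT⟩
    have a1 : γ t ∈ e.source := hzt ▸ e.map_target (H hz).1
    have a2 : ‖e (γ t)‖ < ρ := by
      have := (norm_chart_le h2 p (γ t)).trans (h1 ▸ h3 0 t le_rfl ht0 htT.le)
      rw [h0, zero_sub, norm_neg] at this
      linarith
    refine mem_nhdsWithin_of_mem_nhds ?_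
    filter_upwards [hc.continuousAt.preimage_mem_nhds
      ((e.isOpen_inter_preimage (Metric.isOpen_ball (x := 0) (ε := ρ))).mem_nhds
        ⟨a1, mem_ball_zero_iff.2 a2⟩)] with s hs
    exact ⟨e (γ s), Metric.ball_subset_closedBall hs.2, e.left_inv hs.1⟩
  obtain ⟨z, hz, hzt⟩ := key ⟨hT, le_rfl⟩
  exact hzt ▸ (H hz).2

/-- the length distance -/
def ld (M : Imm n ι X) (p q : X) : ℝ := sInf {T | Jn M p q T}

theorem Jn.ld_le (h : Jn M p q T) : ld M p q ≤ T := csInf_le ⟨0, fun _ h => h.1⟩ h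

theorem exists_jn_lt [PreconnectedSpace X] (h : ld M p q < T) : ∃ T', Jn M p q T' ∧ T' < T :=
  exists_lt_of_csInf_lt (exists_jn M p q) h

theorem le_ld [PreconnectedSpace X] {a : ℝ} (h : ∀ T, Jn M p q T → a ≤ T) : a ≤ ld M p q :=
  le_csInf (exists_jn M p q) h

/-- the length metric; its topology is the given one -/
@[reducible] def met [T2Space X] [PreconnectedSpace X] (M : Imm n ι X) : MetricSpace X :=
  MetricSpace.ofDistTopology (ld M)
    (fun p => le_antisymm (Jn.refl p).ld_le (le_ld fun _ h => h.1))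
    (fun _ _ => le_antisymm (le_ld fun _ h => h.symm.ld_le) (le_ld fun _ h => h.symm.ld_le))
    (fun p q r => by
      refine le_of_forall_pos_le_add fun ε hε => ?_
      obtain ⟨T, h1, h2⟩ := exists_jn_lt (lt_add_of_pos_right (ld M p q) (half_pos hε))
      obtain ⟨T', h3, h4⟩ := exists_jn_lt (lt_add_of_pos_right (ld M q r) (half_pos hε))
      linarith [(h1.trans h3).ld_le])
    (fun s => by
      rw [isOpen_iff_mem_nhds]
      refine forall₂_congr fun p _ => ⟨fun h => ?_, fun ⟨ε, hε, h⟩ => ?_⟩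
      · obtain ⟨ρ, hρ, H⟩ := stay M p h
        exact ⟨ρ, hρ, fun q hq => let ⟨T, h1, h2⟩ := exists_jn_lt hq; H q T h1 h2⟩
      · obtain ⟨U, hU, H⟩ := loc_jn M p one_pos
        have h1 : ∀ᶠ q in 𝓝 p, (1 + 1) * ‖M.x p - M.x q‖ < ε :=
          (continuous_const.mul (continuous_const.sub M.continuous_x).norm).continuousAt.eventually
            (gt_mem_nhds (by simpa using hε))
        filter_upwards [hU, h1] with q hq h2
        exact h q ((H p (mem_of_mem_nhds hU) q hq).ld_le.trans_lt h2))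
    fun p q h => by
      by_contra hne
      obtain ⟨ρ, hρ, H⟩ := stay M p (isOpen_compl_singleton.mem_nhds (x := p) hne)
      obtain ⟨T, h1, h2⟩ := exists_jn_lt (h ▸ hρ : ld M p q < ρ)
      exact H q T h1 h2 rfl

theorem len_met [T2Space X] [PreconnectedSpace X] (M : Imm n ι X) : @Len n ι _ X (met M) M := by
  let := met M
  refine ⟨fun p q => le_ld fun _ h => h.chord, fun p ε hε => ?_, fun p q ε hε => ?_⟩
  · obtain ⟨U, hU, H⟩ := loc_jn M p hε
    exact ⟨U, hU, fun q hq q' hq' => (H q hq q' hq').ld_le⟩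
  · obtain ⟨T, ⟨h0, γ, hc, h1, h2, h3⟩, h4⟩ := exists_jn_lt (lt_add_of_pos_right (ld M p q) hε)
    refine ⟨fun t => γ (T * t), fun t => T * t, hc.comp (by fun_prop), by fun_prop, by simpa,
      by simpa, by simp, (mul_one T).trans_le h4.le,
      fun s t hs hst ht => Jn.ld_le ?_⟩
    have a1 := mul_le_mul_of_nonneg_left hst h0
    have a2 := mul_le_of_le_one_right h0 ht
    have a3 := mul_nonneg h0 hs
    exact ⟨by linarith, fun u => γ (T * s + u), hc.comp (by fun_prop), by simp, by simp,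
      fun a b ha hab hb => (h3 _ _ (by linarith) (by linarith) (by linarith)).trans (by linarith)⟩

end Ln

/-- **LEN**: every connected Hausdorff `Imm` carries its length distance -/
theorem exists_len {n : ℕ} {ι : Type} [Fintype ι] {X : Type} [t : TopologicalSpace X] [T2Space X]
    [PreconnectedSpace X] (M : N222.Imm n ι X) : ∃ m : MetricSpace X,
      ∃ h : m.toUniformSpace.toTopologicalSpace = t, @Len n ι _ X m (h ▸ M) :=
  ⟨Ln.met M, rfl, Ln.len_met M⟩

end Crest.Agent.N228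

end
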