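import Crest.Agent.N228.O.Len

/-!
# Row 228 (helper55): gradient bounds give Lipschitz bounds (no properness); `lip : LipStmt`
-/

set_option autoImplicit false
set_option linter.unusedSectionVars false
open Set Filter Topology Function

noncomputable section

namespace Crest.Agent.N228
open Crest.Agent.N222

variable {n m : ℕ} {ι κ : Type} [Fintype ι] [Fintype κ] {X Y : Type}
  {F : Type} [NormedAddCommGroup F] [NormedSpace ℝ F]

/-- the pointwise estimate -/
theorem lip_pt [TopologicalSpace X] {M : Imm n ι X} {f : X → F} {p : X} (hf : M.DiffAt f p) {c : ℝ}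
    (hc : ‖M.td f p‖ < c) : ∀ᶠ q in 𝓝 p, ‖f q - f p‖ ≤ c * ‖M.x q - M.x p‖ := by
  obtain ⟨e, L, he, hp, -, h2, h3⟩ := M.exists_proj_chart p
  have h0 : e p = 0 := by rw [h2, sub_self, map_zero]
  have h4 := ((Imm.diffAt_chart he hp).1 hf).hasFDerivAt
  rw [Imm.fderiv_chart f he hp, h0, h3] at h4
  have h5 := (e.continuousAt hp).tendsto
  rw [h0] at h5
  filter_upwards [h5.eventually (h4.isLittleO.bound (sub_pos.2 hc)), e.eventually_left_inverse hp]
    with q hq hq'
  have h6 := Ln.norm_chart_le h2 q p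
  have h7 : ‖M.td f p (L (e q))‖ ≤ ‖M.td f p‖ * ‖e q‖ := by
    simpa using (M.td f p).le_opNorm (L (e q))
  rw [comp_apply, comp_apply, hq', ← h0, e.left_inv hp, h0, sub_zero] at hq
  rw [h0, sub_zero] at h6
  have h8 := norm_add_le (f q - f p - M.td f p (L (e q))) (M.td f p (L (e q)))
  rw [sub_add_cancel] at h8
  have h9 := mul_le_mul_of_nonneg_left h6 ((norm_nonneg _).trans hc.le)
  change ‖f q - f p - M.td f p (L (e q))‖ ≤ _ at hq
  linarith

variable [MetricSpace X] {M : Imm n ι X}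

/-- from a pointwise Lipschitz bound near the almost shortest curves to a global one -/
theorem Len.glob (hL : Len M) [PseudoMetricSpace Y] {f : X → Y} {c ε : ℝ} (hc : 0 ≤ c) (hε : 0 < ε)
    {p q : X} (h : ∀ z, dist p z + dist z q ≤ dist p q + ε →
      ∀ᶠ w in 𝓝 z, dist (f z) (f w) ≤ c * dist z w) : dist (f p) (f q) ≤ c * dist p q := by
  have key : ∀ η, 0 < η → η ≤ ε → dist (f p) (f q) ≤ c * (dist p q + η) := fun η h0 h1 => by
    obtain ⟨γ, l, hγ, hl, rfl, rfl, l0, l1, H⟩ := hL.geo p q η h0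
    have h2 : ∀ t ∈ Icc (0 : ℝ) 1, ∀ᶠ s in 𝓝 t,
        dist (f (γ t)) (f (γ s)) ≤ c * dist (γ t) (γ s) := fun t ht =>
      hγ.continuousAt.eventually (h (γ t) (by
        linarith [H 0 t le_rfl ht.1 ht.2, H t 1 ht.1 ht.2 le_rfl]))
    have h3 : ContinuousOn (fun t => f (γ t)) (Icc 0 1) := fun t ht => by
      refine ContinuousAt.continuousWithinAt (tendsto_iff_dist_tendsto_zero.2
        (squeeze_zero' (Eventually.of_forall fun _ => dist_nonneg)
          ((h2 t ht).mono fun s hs => (dist_comm _ _).trans_le hs) ?_))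
      simpa using (show Continuous fun s => c * dist (γ t) (γ s) by fun_prop).tendsto t
    have h4 : Icc 0 1 ⊆ {t | dist (f (γ 0)) (f (γ t)) ≤ c * l t} := by
      refine IsClosed.Icc_subset_of_forall_mem_nhdsWithin ?_ (by simp [l0]) fun t ht => ?_
      · rw [inter_comm]
        exact isClosed_Icc.isClosed_le (continuous_dist.comp_continuousOn
          (continuousOn_const.prodMk h3))
          (continuous_const.mul hl).continuousOn
      · filter_upwards [mem_nhdsWithin_of_mem_nhds (h2 t (Ico_subset_Icc_self ht.2)),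
          Ioo_mem_nhdsGT ht.2.2] with s hs hs'
        have a1 := mul_le_mul_of_nonneg_left (H t s ht.2.1 hs'.1.le hs'.2.le) hc
        have a2 : dist (f (γ 0)) (f (γ t)) ≤ c * l t := ht.1
        change dist _ _ ≤ _
        linarith [dist_triangle (f (γ 0)) (f (γ t)) (f (γ s))]
    exact (h4 ⟨zero_le_one, le_rfl⟩).trans (mul_le_mul_of_nonneg_left l1 hc)
  refine ge_of_tendsto (f := fun η => c * (dist p q + η)) (x := 𝓝[>] 0) ?_ ?_
  · refine Tendsto.mono_left ?_ nhdsWithin_le_nhds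
    simpa using (show Continuous fun η : ℝ => c * (dist p q + η) by fun_prop).tendsto 0
  · filter_upwards [Ioc_mem_nhdsGT hε] with η hη using key η hη.1 hη.2

theorem le_of_forall_gt_mul {a b c : ℝ} (h : ∀ c', c < c' → a ≤ c' * b) : a ≤ c * b :=
  ge_of_tendsto (f := fun c' => c' * b) (x := 𝓝[>] c)
    (((continuous_id.mul continuous_const).tendsto c).mono_left nhdsWithin_le_nhds)
    (eventually_mem_nhdsWithin.mono h)

/-- vector valued, local hypothesis -/
theorem Len.lip_td (hL : Len M) {f : X → F} {c ε : ℝ} (hc : 0 ≤ c) (hε : 0 < ε) {p q : X}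
    (h : ∀ z, dist p z + dist z q ≤ dist p q + ε → M.DiffAt f z ∧ ‖M.td f z‖ ≤ c) :
    ‖f p - f q‖ ≤ c * dist p q := by
  refine le_of_forall_gt_mul fun c' hc' => ?_
  rw [← dist_eq_norm]
  refine hL.glob (hc.trans hc'.le) hε fun z hz => ?_
  filter_upwards [lip_pt (h z hz).1 ((h z hz).2.trans_lt hc')] with w hw
  rw [dist_comm, dist_eq_norm, dist_comm]
  exact hw.trans (mul_le_mul_of_nonneg_left (hL.chord w z) (hc.trans hc'.le))

/-- maps between manifolds with their length distances -/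
theorem Len.lip_map (hL : Len M) [MetricSpace Y] {N : Imm m κ Y} (hN : Len N) {j : X → Y}
    {c ε : ℝ} (hc : 0 ≤ c) (hε : 0 < ε) {p q : X}
    (h : ∀ z, dist p z + dist z q ≤ dist p q + ε → ContinuousAt j z ∧
      M.DiffAt (fun w => N.x (j w)) z ∧ ‖M.td (fun w => N.x (j w)) z‖ ≤ c) :
    dist (j p) (j q) ≤ c * dist p q := by
  refine le_of_forall_gt_mul fun c' hc' => hL.glob (hc.trans hc'.le) hε fun z hz => ?_
  obtain ⟨c1, h1, h2⟩ := exists_between hc'
  have h3 : 0 < c1 := hc.trans_lt h1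
  obtain ⟨U, hU, H⟩ := hN.loc (j z) (c' / c1 - 1) (sub_pos.2 ((one_lt_div h3).2 h2))
  filter_upwards [lip_pt (h z hz).2.1 ((h z hz).2.2.trans_lt h1), (h z hz).1.preimage_mem_nhds hU]
    with w hw hw'
  have a1 := H _ hw' _ (mem_of_mem_nhds hU)
  have a2 := hw.trans (mul_le_mul_of_nonneg_left (hL.chord w z) h3.le)
  rw [dist_comm, dist_comm z]
  refine a1.trans ?_
  rw [add_sub_cancel]
  refine (mul_le_mul_of_nonneg_left a2 (div_nonneg (h3.trans h2).le h3.le)).trans (le_of_eq ?_)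
  field_simp

variable [DecidableEq ι]

theorem norm_td_le [TopologicalSpace Y] {N : Imm n ι Y} {f : Y → ℝ} {c : ℝ} (hc : 0 ≤ c) {z : Y} :
    ‖N.td f z‖ ≤ c ↔ N.pre.gam f f z ≤ c ^ 2 := by
  rw [Imm.norm_td, Imm.gam_self_eq, pow_le_pow_iff_left₀ (norm_nonneg _) hc two_ne_zero]

/-- **Lip**, local hypothesis -/
theorem Len.lip_loc (hL : Len M) {f : X → ℝ} {c ε : ℝ} (hc : 0 ≤ c) (hε : 0 < ε) {p q : X}
    (h : ∀ z, dist p z + dist z q ≤ dist p q + ε → M.DiffAt f z ∧ M.pre.gam f f z ≤ c ^ 2) :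
    |f p - f q| ≤ c * dist p q :=
  hL.lip_td hc hε fun z hz => ⟨(h z hz).1, (norm_td_le hc).2 (h z hz).2⟩

/-- **Lip** -/
theorem Len.lip (hL : Len M) {f : X → ℝ} (hf : M.Sm f) {c : ℝ} (hc : 0 ≤ c)
    (h : ∀ z, M.pre.gam f f z ≤ c ^ 2) (p q : X) : |f p - f q| ≤ c * dist p q :=
  hL.lip_loc hc one_pos fun z _ => ⟨hf.diffAt z, h z⟩

theorem lip : LipStmt := fun _ _ _ _ _ _ _ _ _ _ _ _ hL _ _ hf hc h => hL.lip hf hc h

end Crest.Agent.N228

end
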