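import Crest.Agent.N228.O.Defs

/-!
# Row 228, outer layer: the nerve map and the priority rule (helper33)
-/

set_option autoImplicit false
open Set Filter Topology Function

noncomputable section

namespace Crest.Agent.N228

theorem sign : SignStmt := by
  intro X _ k C s hc hlf hcov hz hd
  refine ⟨ℕ, fun c => {p | 0 ≤ s c p} ∩ ⋂ c' ∈ Iio c, {p | s c' p ≤ 0}, fun c => ?_, ?_, fun p => ?_,
    fun p t ht => ?_, fun c p hp q hq => hd c p q hp.1 hq.1⟩
  · exact (isClosed_le continuous_const (hc c)).inter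
      (isClosed_biInter fun c' _ => isClosed_le (hc c') continuous_const)
  · exact hlf.subset fun c => inter_subset_left
  · classical
    refine ⟨Nat.find (hcov p), (Nat.find_spec (hcov p)).le, mem_iInter₂.2 fun c' hc' => ?_⟩
    exact not_lt.1 (Nat.find_min (hcov p) hc')
  · rcases t.eq_empty_or_nonempty with rfl | hne
    · simp
    have h1 : (t.erase (t.max' hne)).card ≤ k := by
      refine hz p _ fun c hcm => ?_
      have hlt : c < t.max' hne := Finset.lt_max'_of_mem_erase_max' t hne hcm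
      exact le_antisymm (mem_iInter₂.1 (ht _ (t.max'_mem hne)).2 c hlt)
        (ht c (Finset.mem_of_mem_erase hcm)).1
    rw [Finset.card_erase_of_mem (t.max'_mem hne)] at h1
    omega

namespace Nv

variable {X : Type} [MetricSpace X] {κ : Type}

open Classical in
/-- distance to a set, `ε` for the empty set -/
def dd (ε : ℝ) (A : Set X) (p : X) : ℝ := if A.Nonempty then Metric.infDist p A else ε

theorem dd_nonneg {ε : ℝ} (hε : 0 < ε) (A : Set X) (p : X) : 0 ≤ dd ε A p := by
  unfold dd; split_ifs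
  · exact Metric.infDist_nonneg
  · exact hε.le

theorem dd_le (ε : ℝ) (A : Set X) (p q : X) : dd ε A p ≤ dd ε A q + dist p q := by
  unfold dd; split_ifs
  · exact Metric.infDist_le_infDist_add_dist
  · linarith [dist_nonneg (x := p) (y := q)]

theorem dd_cont (ε : ℝ) (A : Set X) : Continuous (dd ε A) := by
  unfold dd; split_ifs
  · exact Metric.continuous_infDist_pt A
  · exact continuous_const

theorem dd_mem {ε : ℝ} {A : Set X} {p : X} (hp : p ∈ A) : dd ε A p = 0 := by
  unfold dd; rw [if_pos ⟨p, hp⟩]; exact Metric.infDist_zero_of_mem hp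

theorem dd_lt {ε t : ℝ} {A : Set X} {p : X} (h : dd ε A p < t) (ht : t ≤ ε) :
    ∃ a ∈ A, dist p a < t := by
  unfold dd at h; split_ifs at h with hA
  · exact (Metric.infDist_lt_iff hA).1 h
  · linarith

/-- admissible radii -/
def Rad (ε : ℝ) (k : ℕ) (A : κ → Set X) (p : X) : Set ℝ :=
  {t | t ≤ ε / 2 ∧ ∀ s : Finset κ, (∀ i ∈ s, dd ε (A i) p < t) → s.card ≤ k + 1}

/-- the largest admissible radius -/
def mm (ε : ℝ) (k : ℕ) (A : κ → Set X) (p : X) : ℝ := sSup (Rad ε k A p)

variable {ε : ℝ} {k : ℕ} {A : κ → Set X}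

theorem bdd (p : X) : BddAbove (Rad ε k A p) := ⟨ε / 2, fun _ ht => ht.1⟩

theorem zero_mem (hε : 0 < ε) (p : X) : (0 : ℝ) ∈ Rad ε k A p := by
  refine ⟨by positivity, fun s hs => ?_⟩
  rcases s.eq_empty_or_nonempty with rfl | ⟨i, hi⟩
  · simp
  · exact absurd (hs i hi) (not_lt.2 (dd_nonneg hε _ _))

theorem mm_le (hε : 0 < ε) (p : X) : mm ε k A p ≤ ε / 2 :=
  csSup_le ⟨0, zero_mem hε p⟩ fun _ ht => ht.1

theorem mm_lip (hε : 0 < ε) (p q : X) : mm ε k A p ≤ mm ε k A q + dist p q := by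
  refine csSup_le ⟨0, zero_mem hε p⟩ fun t ht => ?_
  have h : t - dist p q ∈ Rad ε k A q := by
    refine ⟨by linarith [ht.1, dist_nonneg (x := p) (y := q)], fun s hs => ht.2 s fun i hi => ?_⟩
    linarith [hs i hi, dd_le ε (A i) p q]
  linarith [le_csSup (bdd q) h, show mm ε k A q = sSup (Rad ε k A q) from rfl]

theorem mm_cont (hε : 0 < ε) : Continuous (mm ε k A) := by
  refine (LipschitzWith.of_dist_le_mul (K := 1) fun p q => ?_).continuous
  rw [Real.dist_eq, abs_le]
  have h1 := mm_lip (k := k) (A := A) hε p q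
  have h2 := mm_lip (k := k) (A := A) hε q p
  rw [dist_comm] at h2
  constructor <;> simp <;> linarith

theorem mm_card (hε : 0 < ε) (p : X) (s : Finset κ) (hs : ∀ i ∈ s, dd ε (A i) p < mm ε k A p) :
    s.card ≤ k + 1 := by
  rcases s.eq_empty_or_nonempty with rfl | hne
  · simp
  obtain ⟨j, hj, hmax⟩ := s.exists_max_image (fun i => dd ε (A i) p) hne
  obtain ⟨t, ht, hlt⟩ := exists_lt_of_lt_csSup ⟨0, zero_mem hε p⟩ (hs j hj)
  exact ht.2 s fun i hi => (hmax i hi).trans_lt hlt

theorem mm_fin (hε : 0 < ε) (p : X) : {i | dd ε (A i) p < mm ε k A p}.Finite := by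
  by_contra h
  obtain ⟨s, hs, hc⟩ := Set.Infinite.exists_subset_card_eq h (k + 2)
  have := mm_card hε p s fun i hi => hs hi
  omega

theorem mm_pos (hε : 0 < ε) (hcl : ∀ i, IsClosed (A i)) (hlf : LocallyFinite A)
    (hm : ∀ p (s : Finset κ), (∀ i ∈ s, p ∈ A i) → s.card ≤ k + 1) (p : X) : 0 < mm ε k A p := by
  obtain ⟨r, hr, hb⟩ := Metric.mem_nhds_iff.1 (hlf.iInter_compl_mem_nhds hcl p)
  have h : min r (ε / 2) ∈ Rad ε k A p := by
    refine ⟨min_le_right _ _, fun s hs => hm p s fun i hi => ?_⟩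
    obtain ⟨a, ha, hd⟩ := dd_lt (hs i hi) ((min_le_right _ _).trans (by linarith))
    by_contra hp
    have : a ∈ Metric.ball p r := by
      rw [Metric.mem_ball, dist_comm]; exact hd.trans_le (min_le_left _ _)
    exact mem_iInter₂.1 (hb this) i hp ha
  exact (lt_min hr (by positivity)).trans_le (le_csSup (bdd p) h)

/-- the weights -/
def ww (ε : ℝ) (k : ℕ) (A : κ → Set X) (i : κ) (p : X) : ℝ :=
  max (mm ε k A p / 2 - dd ε (A i) p) 0

theorem ww_nonneg (i : κ) (p : X) : 0 ≤ ww ε k A i p := le_max_right _ _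

theorem ww_cont (hε : 0 < ε) (i : κ) : Continuous (ww ε k A i) :=
  (((mm_cont hε).div_const 2).sub (dd_cont ε _)).max continuous_const

theorem ww_ne {i : κ} {p : X} (h : ww ε k A i p ≠ 0) : dd ε (A i) p < mm ε k A p / 2 := by
  by_contra hn
  exact h (max_eq_right (by linarith [not_lt.1 hn]))

theorem ww_lf (hε : 0 < ε) (hpos : ∀ p, 0 < mm ε k A p) :
    LocallyFinite fun i => support (ww ε k A i) := by
  intro p
  refine ⟨Metric.ball p (mm ε k A p / 4), Metric.ball_mem_nhds p (by linarith [hpos p]),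
    (mm_fin (k := k) (A := A) hε p).subset ?_⟩
  rintro i ⟨q, hq, hb⟩
  have h1 := ww_ne hq
  have h2 := dd_le ε (A i) p q
  have h3 := mm_lip (k := k) (A := A) hε q p
  have h4 : dist q p < mm ε k A p / 4 := hb
  rw [dist_comm] at h2
  show dd ε (A i) p < mm ε k A p
  linarith [hpos p]

end Nv

open Nv in
theorem nerve : NerveStmt := by
  intro X _ k C ε hε ⟨κ, A, hcl, hlf, hcov, hm, hd⟩
  have hpos := mm_pos hε hcl hlf hm
  have hl := ww_lf hε hpos
  have hfin : ∀ p, (support fun i => ww ε k A i p).Finite := fun p => hl.point_finite p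
  have hw : ∀ p i, p ∈ A i → 0 < ww ε k A i p := fun p i hi => by
    unfold ww; rw [dd_mem hi]; exact lt_max_of_lt_left (by linarith [hpos p])
  have hW : ∀ p, 0 < ∑ᶠ i, ww ε k A i p := fun p => by
    obtain ⟨i, hi⟩ := hcov p
    exact finsum_pos (fun j => ww_nonneg j p) ⟨i, hw p i hi⟩ (hfin p)
  refine ⟨κ, {σ | σ.Nonempty ∧ σ.card ≤ k + 1}, fun p i => ww ε k A i p / ∑ᶠ j, ww ε k A j p,
    ⟨fun _ h => h.1, fun _ h => h.2, fun σ h τ hτ hn => ⟨hn, (Finset.card_le_card hτ).trans h.2⟩,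
      fun v => ⟨Finset.singleton_nonempty v, by simp⟩⟩, ?_, fun p => ?_, fun p q hpq => ?_⟩
  · exact continuous_pi fun i =>
      (ww_cont hε i).div (continuous_finsum (ww_cont hε) hl) fun p => (hW p).ne'
  · refine ⟨fun v => div_nonneg (ww_nonneg v p) (hW p).le, (hfin p).toFinset, ⟨?_, ?_⟩, ?_, ?_⟩
    · obtain ⟨i, hi⟩ := hcov p
      exact ⟨i, (hfin p).mem_toFinset.2 (hw p i hi).ne'⟩
    · refine mm_card (A := A) hε p _ fun i hi => ?_
      have := ww_ne ((hfin p).mem_toFinset.1 hi)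
      linarith [hpos p]
    · intro v hv
      have : ww ε k A v p = 0 := by
        by_contra h
        exact hv ((hfin p).mem_toFinset.2 h)
      simp [this]
    · rw [← Finset.sum_div, ← finsum_eq_sum _ (hfin p)]
      exact div_self (hW p).ne'
  · obtain ⟨i, hi⟩ := hcov p
    have h1 : 0 < ww ε k A i q / ∑ᶠ j, ww ε k A j q := by
      have := congrFun hpq i
      simp only at this
      rw [← this]
      exact div_pos (hw p i hi) (hW p)
    have h2 : ww ε k A i q ≠ 0 := by
      intro h; rw [h, zero_div] at h1; exact lt_irrefl _ h1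
    have h3 := mm_le (k := k) (A := A) hε q
    obtain ⟨a, ha, hda⟩ := dd_lt (ww_ne h2) (by linarith)
    have h4 := hd i p hi a ha
    have h5 := dist_triangle_right p q a
    linarith

end Crest.Agent.N228

end
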