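import Crest.Agent.N228.G.Basic

/-!
# Row 228, the outer layer (helper92): phases from functions with a large budget

`Th t = π t + sin (2 π t) / 2` crosses the levels `± π / 2` with slope zero.
-/

set_option autoImplicit false
open Set Filter Topology Function Real
open scoped ContDiff
open Crest.Agent.N222 Crest.Agent.N222.Imm

noncomputable section

namespace Crest.Agent.N228

open G

/-- the profile -/
def Th (t : ℝ) : ℝ := π * t + sin (2 * π * t) / 2

/-- its derivative -/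
def Th' (t : ℝ) : ℝ := π + π * cos (2 * π * t)

theorem contDiff_Th : ContDiff ℝ ∞ Th := by unfold Th; fun_prop

theorem hasDerivAt_Th (t : ℝ) : HasDerivAt Th (Th' t) t := by
  have h := ((hasDerivAt_id t).const_mul π).add
    ((((hasDerivAt_id t).const_mul (2 * π)).sin).div_const 2)
  exact h.congr_deriv (by simp only [Th', id]; ring)

theorem Th_neg (t : ℝ) : Th (-t) = -Th t := by
  simp only [Th, mul_neg, sin_neg]; ring

theorem Th_half (t : ℝ) : Th t - π / 2 = (2 * π * (t - 1 / 2) - sin (2 * π * (t - 1 / 2))) / 2 := by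
  rw [show 2 * π * (t - 1 / 2) = 2 * π * t - π by ring, sin_sub_pi, Th]; ring

theorem lt_Th {t : ℝ} : π / 2 < Th t ↔ 1 / 2 < t := by
  refine ⟨fun h => by_contra fun h' => ?_, fun h => ?_⟩
  · have h1 : 0 ≤ -(2 * π * (t - 1 / 2)) := by nlinarith [pi_pos, not_lt.1 h']
    have h2 := sin_le h1
    rw [sin_neg] at h2
    linarith [Th_half t]
  · have h1 : 0 < 2 * π * (t - 1 / 2) := by nlinarith [pi_pos]
    linarith [Th_half t, sin_lt h1]

theorem Th_lt {t : ℝ} : Th t < -(π / 2) ↔ t < -(1 / 2) := by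
  rw [lt_neg, ← Th_neg, lt_Th, lt_neg]

theorem Th_lt' {t : ℝ} (h : t < 1 / 2) : Th t < π / 2 := by
  have h1 : 0 < -(2 * π * (t - 1 / 2)) := by nlinarith [pi_pos]
  have h2 := sin_lt h1
  rw [sin_neg] at h2
  linarith [Th_half t]

theorem abs_Th_le {t : ℝ} : |Th t| ≤ π / 2 ↔ |t| ≤ 1 / 2 := by
  rw [abs_le, abs_le, ← not_lt, ← not_lt, Th_lt, lt_Th, not_lt, not_lt]

theorem Th_one : Th 1 = π := by simp [Th]

theorem Th_neg_one : Th (-1) = -π := by rw [Th_neg, Th_one]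

theorem Th_pos {t : ℝ} : 0 < Th t ↔ 0 < t := by
  have key : ∀ s : ℝ, 0 < s → 0 < Th s := fun s hs => by
    rcases le_or_gt s (1 / 2) with h | h
    · have := sin_nonneg_of_nonneg_of_le_pi (x := 2 * π * s) (by positivity)
        (by nlinarith [pi_pos])
      unfold Th
      positivity
    · linarith [lt_Th.2 h, pi_pos]
  refine ⟨fun h => by_contra fun h' => ?_, key t⟩
  rcases (not_lt.1 h').eq_or_lt with rfl | h'
  · simp [Th] at h
  · linarith [key (-t) (neg_pos.2 h'), Th_neg t]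

theorem Th_neg_iff {t : ℝ} : Th t < 0 ↔ t < 0 := by
  rw [← neg_pos, ← Th_neg, Th_pos, neg_pos]

theorem cos_Th_pos {t : ℝ} (h : |t| < 1 / 2) : 0 < cos (Th t) := by
  refine cos_pos_of_mem_Ioo ⟨?_, Th_lt' (abs_lt.1 h).2⟩
  linarith [Th_lt' (t := -t) (by linarith [(abs_lt.1 h).1]), Th_neg t]

/-- the slope constant `a` pays for gradients up to `√ I` -/
def Slp (η I a : ℝ) : Prop := ∀ t g, |t| ≤ 1 / 2 → 0 ≤ g → g ^ 2 ≤ I →
  |Th' t| * g ≤ a * g * cos (Th t) + √η / 16 * sin (Th t) ^ 2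

theorem Slp.mono {η I I' a : ℝ} (h : Slp η I a) (hI : I' ≤ I) : Slp η I' a :=
  fun t g ht h0 hg => h t g ht h0 (hg.trans hI)

theorem exists_slp {η : ℝ} (hη : 0 < η) (I : ℝ) : ∃ a, 0 ≤ a ∧ Slp η I a := by
  have hc := contDiff_Th.continuous
  have hc' : Continuous Th' := by unfold Th'; fun_prop
  have hK : IsCompact (Icc (-(1 / 2) : ℝ) (1 / 2) ∩
      {t | √η / 16 * sin (Th t) ^ 2 ≤ |Th' t| * √I}) :=
    isCompact_Icc.inter_right (isClosed_le (by fun_prop) (by fun_prop))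
  obtain ⟨m, hm, h⟩ := hK.exists_forall_le' (f := fun t => cos (Th t)) (by fun_prop) (a := 0)
    fun t ht => by
      refine cos_Th_pos ((abs_le.2 ht.1).lt_of_ne fun h => ?_)
      have h1 : sin (Th t) ^ 2 = 1 ∧ Th' t = 0 := by
        have e1 : Th (1 / 2) = π / 2 := by have := Th_half (1 / 2); simp at this ⊢; linarith
        have e2 : Th' (1 / 2) = 0 := by
          rw [Th', show 2 * π * (1 / 2) = π by ring, cos_pi]; ring
        rcases (abs_eq (by norm_num)).1 h with rfl | rfl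
        · exact ⟨by rw [e1, sin_pi_div_two, one_pow], e2⟩
        · exact ⟨by rw [Th_neg, e1, sin_neg, sin_pi_div_two]; norm_num,
            by rwa [Th', mul_neg, cos_neg]⟩
      have h2 := ht.2
      rw [mem_setOf_eq, h1.1, h1.2, abs_zero, zero_mul] at h2
      linarith [sqrt_pos.2 hη]
  refine ⟨2 * π / m, by positivity, fun t g ht h0 hg => ?_⟩
  have hcos : 0 ≤ cos (Th t) := cos_nonneg_of_mem_Icc (abs_le.1 (abs_Th_le.2 ht))
  by_cases h1 : √η / 16 * sin (Th t) ^ 2 ≤ |Th' t| * √I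
  · have h2 := h t ⟨abs_le.1 ht, h1⟩
    have h3 : |Th' t| ≤ 2 * π := abs_le.2 ⟨by unfold Th'; nlinarith [neg_one_le_cos (2 * π * t), pi_pos],
      by unfold Th'; nlinarith [cos_le_one (2 * π * t), pi_pos]⟩
    have h4 : 2 * π ≤ 2 * π / m * cos (Th t) := by
      rw [div_mul_eq_mul_div, le_div_iff₀ hm]
      exact mul_le_mul_of_nonneg_left h2 (by positivity)
    have h5 : 0 ≤ √η / 16 * sin (Th t) ^ 2 := by positivity
    nlinarith [mul_le_mul_of_nonneg_right (h3.trans h4) h0]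
  · have h2 : |Th' t| * g ≤ |Th' t| * √I :=
      mul_le_mul_of_nonneg_left (le_sqrt_of_sq_le hg) (abs_nonneg _)
    have h3 : 0 ≤ 2 * π / m * g * cos (Th t) := by positivity
    linarith [not_le.1 h1]

theorem Slp.lt_rate {η I a t g ε : ℝ} (h : Slp η I a) (hη : 0 < η) (ht : |t| ≤ 1 / 2) (h0 : 0 ≤ g)
    (hg : g ^ 2 ≤ I) (hε : 0 < ε) : |Th' t| * g < rate η (a * g + ε) (Th t) := by
  have h1 := le_rate (η := η / 4) (b := min ε (√η / 16)) (t := Th t) (by positivity)
    ((min_le_right _ _).trans_eq (by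
      rw [sqrt_div' _ (by norm_num), show (4 : ℝ) = 2 ^ 2 by norm_num, sqrt_sq (by norm_num)]
      ring)) (abs_Th_le.2 ht)
  have h2 := rate_mono (η := η / 4) (min_le_left ε (√η / 16)) (abs_Th_le.2 ht)
  have h3 : 0 < min ε (√η / 16) := by positivity
  have h4 := h t g ht h0 hg
  rw [rate, sqrt_div' _ (by norm_num), show √(4 : ℝ) = 2 by
    rw [show (4 : ℝ) = 2 ^ 2 by norm_num, sqrt_sq (by norm_num)]] at h1
  simp only [rate] at h2 ⊢
  nlinarith

section
variable {C : Type} [Fintype C]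

theorem ok_of_slp {η r I a t g : C → ℝ} {V : ℝ} (hη : ∀ c, 0 < η c)
    (h : ∀ c, Slp (η c) (I c) (a c)) (hg : ∀ c, |t c| ≤ 1 / 2 → 0 ≤ g c ∧ g c ^ 2 ≤ I c)
    (hV : ∑ c ∈ fin fun c => Th (t c), (4 / 3 * a c ^ 2 * g c ^ 2 + r c) < V) :
    Ok η r V (fun c => Th (t c)) fun c => |Th' (t c)| * g c := by
  have hc : Continuous fun ε : ℝ =>
      ∑ c ∈ fin fun c => Th (t c), (4 / 3 * (a c * g c + ε) ^ 2 + r c) := by fun_prop
  have h1 : ∀ᶠ ε in 𝓝[>] (0 : ℝ),
      ∑ c ∈ fin fun c => Th (t c), (4 / 3 * (a c * g c + ε) ^ 2 + r c) < V :=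
    nhdsWithin_le_nhds ((hc.tendsto 0).eventually_lt_const (by
      simpa only [add_zero, mul_pow, mul_assoc] using hV))
  obtain ⟨ε, h2, h3⟩ := (h1.and self_mem_nhdsWithin).exists
  exact ⟨fun c => a c * g c + ε, fun c hc =>
    have h4 := abs_Th_le.1 ((mem_fin (φ := fun c => Th (t c))).1 hc)
    (h c).lt_rate (hη c) h4 (hg c h4).1 (hg c h4).2 h3, h2⟩

variable {d : ℕ} {ι : Type} [Fintype ι] [DecidableEq ι] {X : Type} [TopologicalSpace X]
  {M : Imm d ι X}

theorem norm_grad_Th {f : X → ℝ} (hf : M.Sm f) (p : X) :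
    ‖M.grad (fun q => Th (f q)) p‖ = |Th' (f p)| * ‖M.grad f p‖ := by
  rw [← Real.norm_eq_abs, ← norm_smul]
  congr 1
  ext a
  exact D_comp (hf.diffAt p) (hasDerivAt_Th _) a

/-- **from the budget to the class** -/
theorem ok_of_budget {η r I a : C → ℝ} {V : ℝ} {f : C → X → ℝ} {p : X} (hη : ∀ c, 0 < η c)
    (h : ∀ c, Slp (η c) (I c) (a c)) (hf : ∀ c, M.Sm (f c))
    (hI : ∀ c, |f c p| ≤ 1 / 2 → M.pre.gam (f c) (f c) p ≤ I c)
    (hV : ∑ c ∈ fin fun c => Th (f c p),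
      (4 / 3 * a c ^ 2 * M.pre.gam (f c) (f c) p + r c) < V) :
    Ok η r V (ev (fun c q => Th (f c q)) p) (gr M (fun c q => Th (f c q)) p) := by
  have := ok_of_slp (g := fun c => ‖M.grad (f c) p‖) hη h
    (fun c hc => ⟨norm_nonneg _, by rw [← gam_self_eq]; exact hI c hc⟩)
    (by simpa only [gam_self_eq] using hV)
  convert this using 1
  funext c
  exact norm_grad_Th (hf c) p

end

end Crest.Agent.N228

end
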